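import Vale.Agent.P139Z.Num.Chk

/-! Certificates, part 1. -/

namespace Vale.Agent.P139Z.Num

/-- A subdivision tree. -/
def tJ3 : Tr :=
  (.sy (.sx (.sy (.sx (.sy (.sx (.sy (.sx (.sy (.leaf 7 2 57 40 56 40) (.leaf 7 2 57 40 56 40))
  (.sy (.leaf 7 2 57 40 57 40) (.leaf 7 2 57 40 56 40))) (.sx (.sy (.leaf 7 2 57 40 56 40)
  (.leaf 7 2 57 40 56 40)) (.sy (.leaf 7 2 57 40 56 40) (.leaf 7 2 57 40 56 40)))) (.sy (.sx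
  (.sy (.leaf 6 2 54 36 54 36) (.leaf 6 2 54 36 54 36)) (.sy (.leaf 6 2 54 36 54 36) (.leaf 6 2
  54 36 54 36))) (.sx (.sy (.leaf 6 2 54 36 54 36) (.leaf 6 2 54 36 54 36)) (.sy (.leaf 6 2 54
  36 54 36) (.leaf 6 2 54 36 54 36))))) (.sx (.sy (.sx (.sy (.leaf 7 2 57 40 56 40) (.leaf 7 2
  57 40 56 40)) (.sy (.leaf 5 3 54 36 53 36) (.leaf 5 3 54 35 53 36))) (.sx (.sy (.leaf 7 2 57
  40 56 40) (.leaf 7 2 57 40 56 40)) (.sy (.leaf 5 3 54 35 53 36) (.leaf 6 2 54 35 53 36))))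
  (.sy (.sx (.sy (.leaf 6 2 54 36 53 36) (.leaf 6 2 54 36 53 36)) (.leaf 9 3 65 51 65 51)) (.sx
  (.sy (.leaf 6 2 54 36 53 36) (.leaf 6 2 54 35 53 36)) (.leaf 7 3 60 44 59 44))))) (.sy (.sx
  (.sy (.sx (.leaf 7 3 59 44 59 44) (.leaf 7 2 57 40 57 40)) (.sx (.leaf 8 2 60 44 59 44) (.leaf
  7 2 57 40 57 40))) (.sy (.sx (.leaf 7 2 57 40 57 40) (.leaf 7 2 57 40 57 40)) (.sx (.leaf 7 2
  57 40 57 40) (.leaf 7 2 57 40 57 40)))) (.sx (.sy (.sx (.leaf 8 2 60 44 59 44) (.leaf 7 2 57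
  40 56 40)) (.sx (.leaf 6 3 57 40 56 40) (.leaf 7 2 57 40 56 40))) (.sy (.sx (.leaf 7 2 57 40
  57 40) (.leaf 7 2 57 40 57 40)) (.sx (.leaf 7 2 57 40 56 40) (.leaf 5 3 54 36 54 36)))))) (.sx
  (.sy (.sx (.sy (.sx (.sy (.leaf 5 3 54 35 53 36) (.leaf 6 2 54 35 53 36)) (.sy (.leaf 6 2 54
  35 53 36) (.leaf 6 2 54 35 53 36))) (.sx (.sy (.leaf 6 2 54 35 53 36) (.leaf 6 2 54 35 53 36))
  (.leaf 9 3 65 51 64 51))) (.sy (.sx (.leaf 7 3 60 44 59 44) (.leaf 6 3 57 40 56 40)) (.sx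
  (.leaf 6 3 57 40 56 40) (.leaf 7 2 57 40 56 40)))) (.sx (.sy (.sx (.leaf 9 3 65 51 64 51)
  (.leaf 6 3 57 40 56 40)) (.sx (.leaf 6 3 57 40 56 40) (.leaf 7 2 57 40 56 40))) (.sy (.sx
  (.leaf 7 2 57 40 56 40) (.leaf 7 2 57 40 56 40)) (.sx (.leaf 7 2 57 40 56 40) (.leaf 7 2 57 40
  56 40))))) (.sy (.sx (.sy (.sx (.leaf 7 2 57 40 56 40) (.leaf 7 2 57 40 56 40)) (.sx (.leaf 7
  2 57 40 56 40) (.leaf 7 2 57 40 56 40))) (.sy (.sx (.leaf 5 3 54 36 53 36) (.leaf 6 2 54 36 53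
  36)) (.sx (.leaf 6 2 54 36 53 36) (.leaf 6 2 54 36 53 36)))) (.sx (.sy (.sx (.leaf 7 2 57 40
  56 40) (.leaf 6 2 54 35 53 36)) (.sx (.leaf 6 2 54 35 53 36) (.leaf 6 2 54 35 53 36))) (.sy
  (.sx (.leaf 6 2 54 36 53 36) (.leaf 6 2 54 36 53 36)) (.leaf 7 3 60 44 59 44)))))) (.sy (.sx
  (.sy (.sx (.sy (.sx (.leaf 5 3 54 36 54 36) (.leaf 6 2 54 36 54 36)) (.sx (.leaf 6 2 54 36 54
  36) (.leaf 6 2 54 36 54 36))) (.sy (.leaf 11 3 70 57 70 57) (.leaf 9 3 65 51 65 51))) (.sx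
  (.sy (.sx (.leaf 6 2 54 36 54 36) (.leaf 6 2 54 36 54 36)) (.sx (.leaf 6 2 54 36 54 36) (.leaf
  6 2 54 36 54 36))) (.sy (.leaf 9 3 65 51 65 51) (.leaf 7 3 60 44 59 44)))) (.sy (.sx (.sy
  (.leaf 6 3 57 40 57 40) (.leaf 6 3 57 40 57 40)) (.sy (.leaf 7 2 57 40 57 40) (.leaf 7 2 57 40
  57 41))) (.sx (.sy (.leaf 7 2 57 40 57 40) (.leaf 7 2 57 40 57 41)) (.sy (.leaf 7 2 57 40 57
  41) (.leaf 7 2 57 40 57 41))))) (.sx (.sy (.sx (.sy (.sx (.leaf 6 2 54 36 53 36) (.leaf 6 2 54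
  36 54 36)) (.leaf 7 3 60 44 59 44)) (.sy (.leaf 6 3 57 40 57 40) (.leaf 7 2 57 40 56 41)))
  (.sx (.sy (.leaf 6 3 57 40 56 40) (.leaf 7 2 57 40 56 41)) (.sy (.leaf 7 2 57 40 56 41) (.leaf
  7 2 57 40 56 41)))) (.sy (.sx (.sy (.leaf 7 2 57 40 57 41) (.leaf 7 2 57 40 57 41)) (.sy
  (.leaf 5 3 54 36 54 36) (.leaf 6 2 54 36 54 36))) (.sx (.sy (.leaf 5 3 54 36 53 36) (.leaf 6 2
  54 36 53 36)) (.sy (.leaf 6 2 54 36 54 37) (.leaf 6 2 55 36 53 37))))))) (.sx (.sy (.sx (.sy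
  (.sx (.sy (.sx (.leaf 7 2 57 39 56 40) (.leaf 7 2 57 40 56 40)) (.sx (.leaf 5 3 54 35 53 36)
  (.leaf 6 2 54 35 53 36))) (.sy (.sx (.leaf 5 3 54 35 53 36) (.leaf 6 2 54 35 53 36)) (.sx
  (.leaf 6 2 54 35 53 36) (.leaf 6 2 54 35 53 36)))) (.sx (.sy (.sx (.leaf 6 2 54 35 53 36)
  (.leaf 6 2 54 35 53 36)) (.leaf 6 3 57 39 56 40)) (.sy (.leaf 6 3 57 39 56 40) (.leaf 7 2 57
  39 56 40)))) (.sy (.sx (.sy (.leaf 9 3 65 51 64 51) (.leaf 6 3 57 40 56 40)) (.sy (.leaf 6 3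
  57 40 56 41) (.leaf 7 2 57 40 56 41))) (.sx (.sy (.leaf 7 2 57 40 56 41) (.leaf 5 3 55 35 53
  36)) (.sy (.leaf 5 3 54 35 53 36) (.leaf 6 2 55 35 53 36))))) (.sx (.sy (.sx (.sy (.leaf 7 2
  57 39 56 40) (.leaf 5 3 55 35 53 36)) (.sy (.leaf 5 3 55 35 53 36) (.leaf 6 2 55 35 53 36)))
  (.sx (.sy (.leaf 6 2 55 35 53 36) (.leaf 6 2 55 35 53 36)) (.sy (.leaf 6 2 55 35 53 36) (.leaf
  6 2 55 35 53 36)))) (.sy (.sx (.sy (.leaf 6 2 55 35 53 36) (.leaf 6 2 55 35 53 36)) (.sy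
  (.leaf 6 2 55 35 53 36) (.leaf 6 2 55 35 53 37))) (.sx (.sy (.leaf 6 2 55 35 53 36) (.leaf 6 2
  55 35 53 37)) (.leaf 7 3 60 43 59 45))))) (.sy (.sx (.sy (.sx (.sy (.leaf 7 2 57 40 56 41)
  (.leaf 5 3 54 36 53 36)) (.sy (.leaf 5 3 54 36 53 36) (.leaf 6 2 55 36 53 36))) (.sx (.sy
  (.leaf 6 2 55 35 53 36) (.leaf 6 2 55 35 53 36)) (.sy (.leaf 6 2 55 36 53 37) (.leaf 6 2 55 36
  53 37)))) (.sy (.sx (.sy (.leaf 6 2 55 36 53 37) (.leaf 6 2 55 36 53 37)) (.sy (.leaf 6 2 55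
  36 53 37) (.leaf 6 2 55 36 53 37))) (.sx (.sy (.leaf 6 2 55 36 53 37) (.leaf 6 2 55 36 53 37))
  (.sy (.leaf 6 2 55 36 53 37) (.leaf 6 2 55 36 53 37))))) (.sx (.sy (.sx (.sy (.leaf 6 2 55 35
  53 37) (.leaf 6 2 55 35 53 37)) (.sy (.leaf 6 2 55 35 53 37) (.leaf 6 2 55 35 53 37))) (.sx
  (.leaf 7 2 58 40 56 41) (.leaf 7 2 58 40 56 41))) (.sy (.sx (.leaf 6 3 58 40 56 41) (.leaf 7 2
  58 40 56 41)) (.sx (.leaf 5 3 55 35 53 37) (.leaf 6 2 55 36 53 37)))))))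

theorem cJ3 : chkJ 1 tJ3 0 671088640 0 1073741824 = true := by
  decide +kernel

/-- A subdivision tree. -/
def tS11 : Tr :=
  (.sl (.sl (.sy (.sl (.sy (.leaf 40 0 239 56 0 0) (.leaf 40 0 252 53 0 0)) (.sy (.leaf 36 0 260
  46 0 0) (.leaf 36 0 273 44 0 0))) (.sl (.leaf 63 0 278 77 0 0) (.leaf 56 0 295 64 0 0))) (.sl
  (.sy (.sl (.leaf 40 0 289 46 0 0) (.leaf 32 0 306 35 0 0)) (.leaf 56 0 322 59 0 0)) (.sy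
  (.leaf 40 0 332 40 0 0) (.leaf 40 0 352 38 0 0)))) (.sl (.sl (.sl (.sy (.leaf 25 0 361 23 0 0)
  (.leaf 28 0 380 24 0 0)) (.leaf 45 0 393 39 0 0)) (.sl (.leaf 40 0 412 33 0 0) (.leaf 36 0 432
  28 0 0))) (.sl (.sl (.leaf 36 0 455 26 0 0) (.leaf 28 0 479 19 0 0)) (.leaf 45 0 511 30 0
  0))))

theorem cS11 : chkS tS11 (.m 10737418240) (.p 0) (.p 257698037760) (.p 429496729600) 3 54 = true := by
  decide +kernel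

/-- A subdivision tree. -/
def tS15 : Tr :=
  (.sy (.sy (.sy (.leaf 32 0 21 509 0 0) (.leaf 32 0 22 474 0 0)) (.sy (.leaf 36 0 28 437 0 0)
  (.leaf 45 0 38 396 0 0))) (.sy (.sy (.sy (.leaf 20 0 18 360 0 0) (.leaf 20 0 19 335 0 0)) (.sy
  (.leaf 20 0 21 309 0 0) (.leaf 22 0 26 280 0 0))) (.sy (.sy (.leaf 36 0 48 250 0 0) (.sy
  (.leaf 14 0 20 219 0 0) (.leaf 14 0 22 198 0 0))) (.sy (.sy (.leaf 18 0 33 177 0 0) (.sy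
  (.leaf 9 0 17 155 0 0) (.leaf 6 3 19 140 0 0))) (.sy (.sy (.leaf 8 3 27 126 0 0) (.sy (.leaf 3
  3 15 110 0 0) (.leaf 4 3 20 100 0 0))) (.sy (.sy (.leaf 6 3 29 91 0 0) (.leaf 13 3 56 92 0 0))
  (.sy (.sy (.leaf 8 3 45 76 0 0) (.sx (.leaf 8 3 46 69 0 0) (.leaf 2 3 26 58 0 0))) (.sy (.sx
  (.sl (.leaf 13 3 63 77 0 0) (.leaf 6 3 46 54 0 0)) (.sl (.leaf 3 3 33 56 0 0) (.leaf 1 3 29 40
  0 0))) (.sx (.sl (.sy (.sx (.sl (.leaf 1 3 15 42 0 0) (.leaf 2 3 26 38 0 0)) (.leaf 6 3 45 57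
  0 0)) (.sx (.sl (.leaf 8 0 40 51 0 0) (.leaf 6 3 47 50 0 0)) (.sl (.leaf 3 3 34 46 0 0) (.leaf
  4 3 42 45 0 0)))) (.sy (.leaf 15 3 75 75 0 0) (.sx (.sy (.leaf 5 3 47 43 0 0) (.leaf 8 3 58 52
  0 0)) (.leaf 5 3 50 44 0 0)))) (.sl (.sy (.sx (.leaf 3 3 36 49 0 0) (.leaf 1 3 29 45 0 0))
  (.sx (.sl (.leaf 1 3 26 41 0 0) (.leaf 2 3 36 39 0 0)) (.leaf 10 0 55 61 0 0))) (.sy (.leaf 3
  3 43 43 0 0) (.leaf 5 3 53 48 0 0))))))))))))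

theorem cS15 : chkS tS15 (.m 10737418240) (.p 0) (.m 1730871820288) (.m 17179869184) 0 2 = true := by
  decide +kernel

end Vale.Agent.P139Z.Num
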