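import Vale.Agent.P139Z.Num.Chk

/-! Certificates, part 2. -/

namespace Vale.Agent.P139Z.Num

/-- A subdivision tree. -/
def tJ1 : Tr :=
  (.sy (.sx (.sy (.sx (.sy (.sx (.sy (.sx (.sy (.sx .skip (.sy (.sx (.sy .skip (.leaf 6 2 50 39
  49 39)) (.leaf 5 2 46 35 46 35)) (.sx (.sy (.leaf 4 3 46 34 46 35) (.leaf 5 2 46 34 45 35))
  (.leaf 5 2 46 35 46 35)))) (.sx (.sy (.sx (.sy .skip (.sx (.leaf 6 1 46 34 45 35) (.leaf 6 1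
  46 34 45 35))) (.sy (.leaf 5 3 50 39 49 39) (.leaf 7 1 50 39 49 40))) (.sx (.sy (.leaf 8 1 53
  43 52 44) (.leaf 7 1 50 38 48 40)) (.sy (.leaf 4 3 46 34 45 35) (.leaf 4 3 47 34 45 35))))
  (.sy (.sx (.leaf 5 3 50 39 49 40) (.leaf 5 2 47 34 45 35)) (.sx (.leaf 5 3 50 39 49 40) (.leaf
  5 2 47 34 45 35))))) (.sy (.sx (.sy (.leaf 5 2 46 35 46 35) (.leaf 5 2 47 35 46 35)) (.leaf 5
  2 47 35 46 36)) (.sx (.sy (.leaf 4 3 47 35 46 36) (.leaf 4 3 47 35 45 36)) (.leaf 4 3 47 35 46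
  36)))) (.sx (.sy (.sx (.sy (.sx (.sy (.leaf 7 1 50 38 48 40) (.leaf 7 1 50 38 48 40)) (.sy
  (.leaf 4 3 47 34 45 35) (.leaf 6 1 47 34 45 35))) (.sx (.sy (.leaf 7 1 50 38 48 40) (.leaf 9 1
  57 46 55 48)) (.sy (.leaf 4 3 47 34 45 35) (.leaf 4 3 47 34 44 36)))) (.sy (.sx (.leaf 7 1 50
  39 48 40) (.leaf 5 2 47 34 45 36)) (.sx (.leaf 5 3 51 38 48 40) (.leaf 5 2 47 34 45 36))))
  (.sx (.sy (.sx (.sy (.sx (.leaf 7 1 50 38 48 40) (.leaf 6 1 47 33 44 35)) (.sx (.sy (.leaf 8 0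
  50 38 48 40) (.leaf 8 0 50 38 48 40)) (.leaf 9 0 54 42 51 44))) (.sy (.leaf 7 1 51 38 48 40)
  (.leaf 5 3 51 38 48 40))) (.sx (.sy (.sx (.sy (.leaf 8 0 51 38 48 40) (.leaf 9 0 54 42 51 44))
  (.sy (.leaf 4 3 47 33 44 36) (.leaf 4 3 47 33 44 36))) (.sx (.sy (.leaf 9 0 54 42 51 44)
  (.leaf 4 3 47 33 44 36)) (.leaf 4 3 47 33 44 36))) (.sy (.leaf 5 3 51 38 48 40) (.leaf 5 3 51
  38 48 40)))) (.sy (.sx (.leaf 5 3 51 38 48 40) (.leaf 4 3 47 34 45 36)) (.sx (.leaf 5 3 51 38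
  48 40) (.leaf 5 2 48 34 44 36))))) (.sy (.sx (.sy (.leaf 5 3 51 39 49 40) (.leaf 5 3 51 39 49
  41)) (.leaf 5 3 51 39 49 41)) (.sx (.sy (.leaf 5 3 51 39 48 41) (.leaf 5 3 51 38 48 41))
  (.leaf 5 3 51 39 49 41))))) (.sy (.sx (.sy (.sx (.leaf 3 3 43 31 43 31) (.leaf 3 3 44 31 43
  32)) (.sx (.leaf 5 2 47 35 46 36) (.leaf 3 3 44 31 43 32))) (.sy (.sx (.leaf 5 1 44 32 43 32)
  (.leaf 5 1 44 32 44 32)) (.sx (.leaf 4 2 44 31 43 32) (.leaf 4 2 45 32 43 33)))) (.sx (.sy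
  (.sx (.leaf 5 2 48 35 46 37) (.leaf 3 3 45 30 42 32)) (.sx (.leaf 5 2 48 35 45 37) (.leaf 3 3
  45 30 42 33))) (.sy (.sx (.leaf 4 2 45 31 42 33) (.leaf 4 2 45 31 43 33)) (.sx (.leaf 4 2 45
  31 42 33) (.leaf 4 2 46 31 42 33)))))) (.sx (.sy (.sx (.sy (.sx (.sy (.sx (.sy (.sx (.leaf 4 3
  47 33 44 36) (.leaf 5 2 48 33 44 36)) (.leaf 4 3 48 33 44 36)) (.sy (.leaf 4 3 48 33 44 36)
  (.leaf 4 3 48 33 44 36))) (.sx (.leaf 5 3 51 37 47 40) (.leaf 4 3 48 33 44 36))) (.sy (.sx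
  (.leaf 4 3 48 33 44 36) (.leaf 5 2 48 33 44 36)) (.sx (.leaf 4 3 48 33 44 36) (.leaf 5 2 48 33
  44 37)))) (.sx (.sy (.sx (.leaf 4 3 48 33 43 36) (.leaf 4 3 48 33 43 36)) (.sx (.leaf 4 3 48
  32 43 36) (.leaf 4 3 48 33 43 37))) (.sy (.leaf 5 3 52 38 47 41) (.leaf 4 3 49 33 43 37))))
  (.sy (.sx (.sy (.leaf 4 3 48 34 44 37) (.leaf 4 3 48 34 44 37)) (.leaf 5 3 52 39 48 41)) (.sx
  (.sy (.leaf 4 3 49 33 44 37) (.leaf 5 2 49 33 44 37)) (.leaf 4 3 49 34 44 37)))) (.sx (.sy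
  (.sx (.sy (.leaf 5 3 52 37 47 41) (.leaf 4 3 49 32 43 37)) (.sy (.leaf 4 3 49 33 43 37) (.leaf
  4 3 49 33 43 37))) (.sx (.leaf 9 3 64 52 59 56) (.leaf 5 3 53 37 47 42))) (.sy (.sx (.leaf 5 3
  52 38 47 42) (.leaf 5 2 49 33 44 38)) (.sx (.leaf 5 2 50 33 43 38) (.leaf 5 2 50 33 43 38)))))
  (.sy (.sx (.sy (.sx (.leaf 5 2 49 34 45 37) (.leaf 3 3 46 30 41 33)) (.sx (.leaf 5 2 49 34 44
  38) (.leaf 4 2 46 30 41 33))) (.sy (.leaf 6 2 53 40 49 43) (.leaf 5 2 50 35 45 39))) (.sx (.sy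
  (.leaf 11 3 70 59 66 62) (.leaf 6 2 53 38 48 43)) (.sy (.leaf 5 2 50 35 45 39) (.leaf 4 2 48
  29 40 35)))))) (.sy (.sx (.sy (.sx (.sy (.sx (.leaf 3 3 45 32 44 33) (.leaf 5 2 48 38 48 38))
  (.sx (.leaf 4 2 45 32 44 33) (.leaf 5 2 49 37 48 38))) (.sy (.sx (.sy (.leaf 6 1 49 38 48 38)
  (.leaf 3 3 45 33 45 34)) (.sy (.sx (.leaf 4 2 45 34 45 34) .skip) (.sx (.leaf 5 1 45 33 45 34)
  (.leaf 3 3 46 34 45 34)))) (.sx (.leaf 5 2 49 38 48 39) (.sy (.leaf 5 2 49 38 48 39) (.leaf 4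
  2 46 33 44 34))))) (.sx (.sy (.sx (.leaf 4 2 45 32 43 33) (.leaf 4 2 46 32 43 34)) (.leaf 6 2
  53 41 50 43)) (.sy (.sx (.leaf 4 2 46 33 44 34) (.leaf 4 2 46 33 44 35)) (.leaf 6 2 53 41 51
  43)))) (.sy (.sx (.sy (.sx .skip (.sy .skip (.sx .skip (.leaf 4 2 46 34 45 35)))) (.sx (.sy
  (.sx (.leaf 4 2 46 34 45 34) (.leaf 4 2 46 34 45 35)) (.leaf 4 2 46 34 45 35)) (.sy (.leaf 5 2
  50 39 49 39) (.leaf 4 2 47 34 45 35)))) (.sy (.sx (.leaf 4 4 53 43 53 44) (.leaf 1 4 43 30 42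
  30)) (.sx (.leaf 4 2 47 34 45 35) (.leaf 3 2 43 30 42 31)))) (.sx (.sy (.sx (.leaf 4 2 47 33
  44 35) (.leaf 4 2 47 34 45 35)) (.leaf 5 2 51 38 48 40)) (.sy (.leaf 5 2 51 39 49 40) (.leaf 4
  2 48 34 45 36))))) (.sx (.sy (.sx (.sy (.leaf 5 2 50 36 46 39) (.leaf 4 2 47 31 42 35)) (.leaf
  7 2 57 45 53 48)) (.sx (.leaf 5 2 51 35 45 40) (.leaf 4 2 48 31 42 36))) (.sy (.sx (.leaf 5 2
  51 37 47 41) (.leaf 4 2 48 33 44 37)) (.leaf 7 2 58 45 53 49))))) (.sx (.sy (.sx (.sy (.sx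
  (.sy (.sx (.leaf 5 3 53 36 46 42) (.leaf 5 2 50 32 42 38)) (.sx (.leaf 5 2 50 31 41 38) (.leaf
  5 2 50 32 42 38))) (.sy (.sx (.leaf 5 2 50 32 43 38) (.leaf 4 2 47 28 39 34)) (.leaf 6 2 54 37
  46 43))) (.sx (.sy (.leaf 6 2 54 36 45 43) (.leaf 5 2 51 31 41 39)) (.leaf 7 2 57 41 49 47)))
  (.sy (.sx (.sy (.leaf 5 2 51 33 43 39) (.leaf 5 2 51 33 43 39)) (.leaf 5 2 51 34 44 40)) (.sx
  (.leaf 5 2 52 33 42 40) (.leaf 4 2 49 28 39 36)))) (.sx (.sy (.sx (.leaf 6 2 55 35 44 44)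
  (.leaf 5 2 52 31 41 40)) (.leaf 7 2 59 39 48 48)) (.sy (.leaf 6 2 56 37 46 45) (.leaf 5 2 54
  32 41 42)))) (.sy (.sx (.sy (.sx (.leaf 4 2 49 30 40 36) (.leaf 4 2 49 31 41 37)) (.leaf 5 2
  53 35 44 42)) (.leaf 7 2 59 44 53 50)) (.sx (.leaf 6 2 57 38 47 47) (.leaf 5 1 52 30 40
  40))))) (.sy (.sx (.sy (.sx (.sy (.sx (.leaf 2 4 47 35 46 36) (.leaf 4 1 44 31 43 32)) (.sx
  (.leaf 5 1 48 35 45 37) (.leaf 4 1 45 31 42 33))) (.leaf 5 1 49 37 47 38)) (.sx (.sy (.leaf 4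
  2 49 35 45 38) (.leaf 5 1 50 34 44 39)) (.leaf 4 1 47 31 42 35))) (.leaf 6 1 54 43 52 45))
  (.sx (.sy (.sx (.leaf 5 1 51 33 43 40) (.leaf 4 1 49 30 40 37)) (.leaf 5 1 54 33 42 42))
  (.leaf 4 1 52 31 41 40)))) (.sx (.sy (.sx (.sy (.sx (.leaf 8 2 62 43 50 53) (.leaf 5 2 55 31
  40 43)) (.sx (.leaf 5 2 56 29 37 44) (.leaf 4 2 54 25 34 41))) (.sy (.leaf 7 2 62 42 49 52)
  (.leaf 6 1 58 32 40 47))) (.sx (.sy (.leaf 7 2 63 37 45 53) (.leaf 7 1 62 32 39 51)) (.leaf 5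
  2 61 31 38 49))) (.sy (.sx (.leaf 6 1 59 36 44 48) (.leaf 3 1 53 24 33 39)) (.leaf 7 1 65 39
  46 55))))

theorem cJ1 : chkJ 0 tJ1 0 10737418240 0 12884901888 = true := by
  decide +kernel

/-- A subdivision tree. -/
def tS6 : Tr :=
  (.sl (.sl (.sl (.sl (.sl (.sy (.sx (.sy (.sl (.sx (.sy (.sx (.sy (.leaf 5 3 73 27 0 0) (.leaf
  5 3 74 26 0 0)) (.leaf 5 3 74 28 0 0)) (.sx (.leaf 6 3 77 30 0 0) (.leaf 5 3 76 27 0 0))) (.sy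
  (.leaf 5 3 75 30 0 0) (.leaf 4 3 76 25 0 0))) (.sx (.sy (.leaf 8 3 84 36 0 0) (.leaf 7 3 85 32
  0 0)) (.leaf 6 3 83 31 0 0))) (.sl (.sx (.sy (.leaf 7 3 81 33 0 0) (.leaf 6 3 81 29 0 0))
  (.leaf 9 0 81 32 0 0)) (.sx (.sy (.leaf 6 3 85 28 0 0) (.leaf 6 3 87 27 0 0)) (.leaf 8 0 86 26
  0 0)))) (.sy (.sl (.leaf 8 0 77 33 0 0) (.leaf 7 0 82 27 0 0)) (.sl (.leaf 7 0 80 28 0 0)
  (.leaf 6 0 85 22 0 0)))) (.sx (.sy (.sl (.sx (.leaf 9 3 88 39 0 0) (.leaf 8 0 84 27 0 0)) (.sx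
  (.leaf 7 3 91 30 0 0) (.leaf 7 0 89 21 0 0))) (.sl (.leaf 12 0 92 38 0 0) (.leaf 11 0 96 33 0
  0))) (.sy (.leaf 10 0 90 36 0 0) (.leaf 9 0 92 31 0 0)))) (.sy (.sx (.sy (.sl (.sx (.sy (.leaf
  6 3 88 27 0 0) (.leaf 6 3 90 26 0 0)) (.leaf 8 0 89 25 0 0)) (.sx (.leaf 7 3 97 28 0 0) (.leaf
  7 0 95 20 0 0))) (.sl (.sx (.leaf 7 3 94 29 0 0) (.leaf 7 0 91 21 0 0)) (.leaf 8 3 101 31 0
  0))) (.sy (.leaf 10 0 95 34 0 0) (.leaf 9 0 97 30 0 0))) (.sx (.sy (.sl (.leaf 8 3 98 32 0 0)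
  (.leaf 7 3 103 27 0 0)) (.sl (.leaf 10 0 100 28 0 0) (.leaf 10 0 106 26 0 0))) (.leaf 10 0 103
  32 0 0)))) (.sl (.sy (.sx (.sl (.sy (.leaf 8 3 105 30 0 0) (.leaf 7 3 107 26 0 0)) (.sy (.leaf
  6 3 110 22 0 0) (.leaf 6 3 113 22 0 0))) (.leaf 10 0 110 30 0 0)) (.sx (.sl (.leaf 14 0 114 37
  0 0) (.leaf 11 0 119 27 0 0)) (.leaf 8 0 114 22 0 0))) (.sy (.sx (.sy (.leaf 6 3 117 21 0 0)
  (.leaf 9 0 120 21 0 0)) (.leaf 6 0 118 16 0 0)) (.leaf 14 0 128 35 0 0)))) (.sl (.sl (.sy (.sl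
  (.sx (.leaf 11 0 127 25 0 0) (.leaf 6 0 126 15 0 0)) (.leaf 9 3 135 28 0 0)) (.sl (.leaf 12 0
  133 28 0 0) (.leaf 11 0 140 24 0 0))) (.sy (.leaf 11 0 142 24 0 0) (.leaf 10 0 147 21 0 0)))
  (.sl (.sy (.sl (.leaf 10 0 149 20 0 0) (.leaf 10 0 157 19 0 0)) (.sl (.leaf 10 0 154 20 0 0)
  (.leaf 10 0 161 19 0 0))) (.leaf 12 0 167 22 0 0)))) (.sl (.sl (.sl (.sy (.leaf 12 0 177 21 0
  0) (.leaf 11 0 180 19 0 0)) (.leaf 16 0 195 26 0 0)) (.sl (.leaf 12 0 209 18 0 0) (.leaf 9 0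
  221 12 0 0))) (.sl (.leaf 16 0 237 22 0 0) (.leaf 12 0 260 14 0 0)))) (.sl (.sl (.sl (.leaf 16
  0 288 18 0 0) (.leaf 11 0 315 11 0 0)) (.sl (.leaf 10 0 339 9 0 0) (.leaf 10 0 363 8 0 0)))
  (.sl (.sl (.leaf 11 0 391 9 0 0) (.leaf 9 0 418 6 0 0)) (.leaf 14 0 455 10 0 0))))

theorem cS6 : chkS tS6 (.m 10737418240) (.p 0) (.p 0) (.p 17179869184) 3 54 = true := by
  decide +kernel

/-- A subdivision tree. -/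
def tS10 : Tr :=
  (.sl (.sl (.sl (.sy (.sy (.sl (.leaf 28 0 180 51 0 0) (.leaf 22 0 190 38 0 0)) (.leaf 40 0 204
  66 0 0)) (.sy (.leaf 36 0 214 56 0 0) (.leaf 36 0 225 53 0 0))) (.sy (.sl (.leaf 40 0 216 62 0
  0) (.leaf 32 0 228 47 0 0)) (.sl (.leaf 32 0 235 45 0 0) (.leaf 28 0 248 37 0 0)))) (.sl (.sy
  (.sl (.leaf 36 0 248 49 0 0) (.leaf 22 0 266 27 0 0)) (.sl (.leaf 32 0 266 40 0 0) (.leaf 22 0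
  284 25 0 0))) (.sy (.sl (.leaf 20 0 284 23 0 0) (.leaf 20 0 304 21 0 0)) (.leaf 32 0 313 34 0
  0)))) (.sl (.sl (.sl (.sy (.leaf 20 0 328 20 0 0) (.leaf 20 0 343 19 0 0)) (.leaf 36 0 361 33
  0 0)) (.sl (.leaf 32 0 381 28 0 0) (.leaf 28 0 402 23 0 0))) (.sl (.sl (.leaf 32 0 428 25 0 0)
  (.leaf 22 0 453 16 0 0)) (.sl (.leaf 20 0 475 14 0 0) (.leaf 20 0 497 13 0 0)))))

theorem cS10 : chkS tS10 (.m 10737418240) (.p 0) (.p 128849018880) (.p 257698037760) 3 54 = true := by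
  decide +kernel

end Vale.Agent.P139Z.Num
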