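import Vale.Agent.P139Z.Num.Chk

/-! Certificates, part 3. -/

namespace Vale.Agent.P139Z.Num

/-- A subdivision tree. -/
def tS13 : Tr :=
  (.sl (.sy (.sy (.sl (.sy (.leaf 90 0 410 75 0 0) (.leaf 90 0 430 71 0 0)) (.sl (.sy (.leaf 63
  0 433 49 0 0) (.leaf 63 0 453 47 0 0)) (.leaf 90 0 470 65 0 0))) (.sl (.sy (.leaf 90 0 450 68
  0 0) (.leaf 90 0 469 66 0 0)) (.sl (.sy (.leaf 63 0 472 45 0 0) (.leaf 70 0 490 49 0 0))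
  (.leaf 90 0 505 61 0 0)))) (.sy (.sl (.sy (.leaf 90 0 487 63 0 0) (.leaf 90 0 504 61 0 0))
  (.sl (.leaf 115 0 520 76 0 0) (.leaf 90 0 539 57 0 0))) (.sl (.sy (.leaf 90 0 521 59 0 0)
  (.leaf 90 0 537 57 0 0)) (.sl (.leaf 100 0 551 62 0 0) (.leaf 90 0 570 54 0 0))))) (.sl (.sy
  (.sy (.sl (.leaf 90 0 499 62 0 0) (.leaf 70 0 529 45 0 0)) (.sl (.leaf 90 0 532 58 0 0) (.leaf
  80 0 562 49 0 0))) (.sy (.sl (.leaf 90 0 564 54 0 0) (.leaf 80 0 592 46 0 0)) (.sl (.leaf 90 0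
  594 52 0 0) (.leaf 80 0 621 44 0 0)))) (.sy (.sl (.sy (.leaf 70 0 565 42 0 0) (.leaf 70 0 595
  40 0 0)) (.sy (.leaf 56 0 602 31 0 0) (.leaf 63 0 631 34 0 0))) (.sl (.sy (.leaf 80 0 624 44 0
  0) (.leaf 80 0 651 42 0 0)) (.sy (.leaf 63 0 658 33 0 0) (.leaf 70 0 684 35 0 0))))))

theorem cS13 : chkS tS13 (.m 10737418240) (.p 0) (.p 858993459200) (.p 1730871820288) 3 54 = true := by
  decide +kernel

/-- A subdivision tree. -/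
def tS12 : Tr :=
  (.sl (.sy (.sl (.sy (.sl (.leaf 70 0 305 78 0 0) (.leaf 63 0 321 67 0 0)) (.sl (.leaf 70 0 330
  72 0 0) (.leaf 63 0 346 62 0 0))) (.sl (.sy (.leaf 63 0 346 62 0 0) (.leaf 63 0 369 58 0 0))
  (.sy (.leaf 50 0 375 45 0 0) (.leaf 50 0 397 43 0 0)))) (.sl (.sy (.sl (.leaf 63 0 354 60 0 0)
  (.leaf 63 0 369 58 0 0)) (.leaf 90 0 389 79 0 0)) (.sl (.sy (.leaf 63 0 392 55 0 0) (.leaf 63
  0 413 52 0 0)) (.sy (.leaf 50 0 418 40 0 0) (.leaf 50 0 438 39 0 0))))) (.sl (.sy (.sl (.sy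
  (.leaf 45 0 410 37 0 0) (.leaf 50 0 431 39 0 0)) (.sy (.leaf 36 0 448 27 0 0) (.leaf 40 0 467
  29 0 0))) (.sl (.leaf 90 0 463 66 0 0) (.leaf 70 0 495 48 0 0))) (.sl (.sy (.sl (.leaf 50 0
  489 35 0 0) (.leaf 40 0 511 26 0 0)) (.leaf 70 0 533 45 0 0)) (.sy (.leaf 50 0 541 31 0 0)
  (.leaf 50 0 572 30 0 0)))))

theorem cS12 : chkS tS12 (.m 10737418240) (.p 0) (.p 429496729600) (.p 858993459200) 3 54 = true := by
  decide +kernel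

/-- A subdivision tree. -/
def tJ6 : Tr :=
  (.sx (.sx (.sy (.sx (.sy (.sx (.sy (.leaf 6 2 56 38 55 38) (.leaf 6 2 56 38 55 39)) (.sy
  (.leaf 6 1 53 34 53 34) (.leaf 6 1 53 34 52 34))) (.sx (.sy (.leaf 7 1 56 38 55 39) (.leaf 5 2
  53 34 52 34)) (.leaf 6 2 56 38 55 39))) (.sy (.leaf 4 4 56 39 56 39) (.leaf 6 2 56 39 55 39)))
  (.sx (.sy (.sx (.leaf 6 2 56 38 55 39) (.leaf 5 2 53 34 52 35)) (.leaf 8 2 62 46 60 47)) (.sy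
  (.leaf 5 2 54 34 52 35) (.leaf 6 1 54 34 52 35)))) (.sy (.sx (.leaf 4 4 56 39 56 39) (.leaf 2
  4 51 30 50 31)) (.sx (.leaf 5 2 54 34 52 35) (.leaf 4 2 51 30 49 31)))) (.sx (.leaf 8 4 68 54
  67 54) (.leaf 4 2 52 31 50 32)))

theorem cJ6 : chkJ 1 tJ6 2684354560 5368709120 0 1073741824 = true := by
  decide +kernel

end Vale.Agent.P139Z.Num
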