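import Vale.Agent.P139Z.Num.Chk

/-! Certificates, part 4. -/

namespace Vale.Agent.P139Z.Num

/-- A subdivision tree. -/
def tS5 : Tr :=
  (.sl (.sl (.sl (.sl (.sy (.sl (.sy (.sx (.sy (.leaf 5 3 39 54 0 0) (.leaf 11 3 63 67 0 0))
  (.leaf 9 3 59 67 0 0)) (.sx (.sy (.sl (.leaf 5 3 45 47 0 0) (.leaf 9 3 63 56 0 0)) (.sl (.sx
  (.sy (.leaf 4 3 44 38 0 0) (.leaf 6 3 53 44 0 0)) (.leaf 6 3 54 48 0 0)) (.sx (.sy (.leaf 6 3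
  57 41 0 0) (.leaf 8 3 65 47 0 0)) (.leaf 7 3 63 47 0 0)))) (.sy (.leaf 8 3 61 59 0 0) (.sl
  (.leaf 4 3 51 44 0 0) (.leaf 5 3 60 43 0 0))))) (.sy (.sx (.sy (.sl (.leaf 5 3 48 44 0 0)
  (.leaf 7 3 62 46 0 0)) (.sl (.leaf 7 3 59 48 0 0) (.leaf 8 3 69 46 0 0))) (.sy (.leaf 6 3 59
  49 0 0) (.leaf 8 3 68 53 0 0))) (.sx (.sy (.sl (.sx (.leaf 11 3 73 56 0 0) (.leaf 5 3 59 38 0
  0)) (.sx (.leaf 9 3 74 46 0 0) (.leaf 5 3 67 33 0 0))) (.sl (.sx (.sy (.leaf 6 3 64 37 0 0)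
  (.leaf 7 3 69 39 0 0)) (.leaf 7 3 69 42 0 0)) (.sx (.sy (.leaf 6 3 72 33 0 0) (.leaf 6 3 74 32
  0 0)) (.leaf 9 0 74 35 0 0)))) (.sy (.sl (.leaf 4 3 59 37 0 0) (.leaf 4 3 67 33 0 0)) (.sl
  (.leaf 5 3 67 38 0 0) (.leaf 7 0 72 30 0 0)))))) (.sl (.sy (.sx (.sy (.sl (.sx (.sy (.sx
  (.leaf 11 3 69 59 0 0) (.leaf 5 3 53 39 0 0)) (.sx (.sy (.leaf 7 3 60 44 0 0) (.sx (.sy (.leaf
  5 3 55 35 0 0) (.leaf 6 3 59 39 0 0)) (.leaf 6 3 59 40 0 0))) (.sy (.leaf 5 3 55 37 0 0)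
  (.leaf 5 3 57 37 0 0)))) (.sy (.leaf 5 3 55 41 0 0) (.leaf 6 3 60 43 0 0))) (.sx (.sy (.sx
  (.sy (.leaf 5 3 58 33 0 0) (.leaf 6 3 62 37 0 0)) (.leaf 6 3 62 39 0 0)) (.sx (.sy (.leaf 6 3
  64 36 0 0) (.leaf 6 3 65 36 0 0)) (.leaf 6 3 65 37 0 0))) (.sy (.leaf 5 3 61 36 0 0) (.leaf 5
  3 64 35 0 0)))) (.sl (.sx (.sy (.sx (.sy (.sx (.sy (.leaf 6 3 59 38 0 0) (.leaf 7 3 62 42 0
  0)) (.leaf 11 3 72 56 0 0)) (.sx (.sy (.leaf 7 3 63 42 0 0) (.leaf 7 3 64 41 0 0)) (.sy (.leaf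
  5 3 58 34 0 0) (.leaf 5 3 59 34 0 0)))) (.sy (.leaf 6 3 61 40 0 0) (.leaf 6 3 62 39 0 0)))
  (.sx (.sy (.sx (.sy (.leaf 6 3 62 37 0 0) (.leaf 6 3 62 36 0 0)) (.sy (.leaf 5 3 60 33 0 0)
  (.leaf 5 3 60 33 0 0))) (.sx (.sy (.leaf 5 3 61 32 0 0) (.leaf 5 3 61 31 0 0)) (.leaf 7 3 66
  41 0 0))) (.sy (.leaf 6 3 63 38 0 0) (.leaf 6 3 64 38 0 0)))) (.sy (.sx (.leaf 7 3 64 44 0 0)
  (.leaf 4 3 58 34 0 0)) (.sx (.sy (.leaf 4 3 59 31 0 0) (.leaf 4 3 60 30 0 0)) (.leaf 4 3 60 32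
  0 0)))) (.sx (.sy (.sx (.sy (.leaf 6 3 66 35 0 0) (.leaf 6 3 67 34 0 0)) (.leaf 6 3 67 36 0
  0)) (.sx (.sy (.leaf 6 3 69 34 0 0) (.leaf 6 3 70 33 0 0)) (.leaf 6 3 70 34 0 0))) (.sy (.leaf
  5 3 66 34 0 0) (.leaf 5 3 69 32 0 0))))) (.sy (.sl (.sx (.leaf 6 3 61 46 0 0) (.leaf 3 3 54 37
  0 0)) (.leaf 7 3 69 47 0 0)) (.sl (.sx (.sy (.leaf 3 3 56 31 0 0) (.leaf 3 3 59 30 0 0))
  (.leaf 6 0 59 33 0 0)) (.leaf 8 3 76 47 0 0)))) (.sx (.sy (.sl (.sx (.sy (.sx (.sy (.sx (.sy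
  (.leaf 5 3 62 31 0 0) (.leaf 5 3 63 31 0 0)) (.leaf 6 3 65 36 0 0)) (.sx (.sy (.leaf 5 3 63 30
  0 0) (.leaf 5 3 64 30 0 0)) (.leaf 6 3 66 35 0 0))) (.sy (.leaf 6 3 66 37 0 0) (.leaf 6 3 67
  36 0 0))) (.sx (.sy (.sx (.sy (.leaf 5 3 65 30 0 0) (.leaf 5 3 66 29 0 0)) (.leaf 6 3 68 35 0
  0)) (.sx (.sy (.leaf 5 3 66 29 0 0) (.leaf 5 3 67 29 0 0)) (.leaf 6 3 69 34 0 0))) (.sy (.leaf
  5 3 66 31 0 0) (.leaf 5 3 67 31 0 0)))) (.sy (.sx (.sy (.leaf 4 3 62 30 0 0) (.leaf 4 3 63 29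
  0 0)) (.leaf 4 3 63 31 0 0)) (.sx (.leaf 7 3 71 40 0 0) (.leaf 4 3 66 29 0 0)))) (.sx (.sy
  (.sx (.sy (.leaf 6 3 71 32 0 0) (.leaf 6 3 73 32 0 0)) (.leaf 7 3 74 37 0 0)) (.sx (.sy (.leaf
  6 3 74 31 0 0) (.leaf 6 3 75 31 0 0)) (.leaf 7 3 77 36 0 0))) (.sy (.leaf 5 3 71 31 0 0)
  (.leaf 5 3 74 30 0 0)))) (.sl (.sx (.sy (.sx (.sy (.sx (.sy (.leaf 5 3 68 29 0 0) (.leaf 5 3
  68 28 0 0)) (.leaf 5 3 68 29 0 0)) (.sx (.leaf 8 3 75 40 0 0) (.leaf 5 3 70 29 0 0))) (.sy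
  (.leaf 5 3 69 30 0 0) (.leaf 5 3 70 30 0 0))) (.sx (.sy (.sx (.leaf 6 3 72 31 0 0) (.leaf 5 3
  71 28 0 0)) (.leaf 7 3 75 35 0 0)) (.sy (.leaf 5 3 71 29 0 0) (.leaf 4 3 71 24 0 0)))) (.sy
  (.sx (.leaf 5 3 70 31 0 0) (.leaf 7 0 69 28 0 0)) (.leaf 6 3 74 35 0 0))) (.sx (.sy (.sx (.sy
  (.leaf 6 3 76 30 0 0) (.leaf 5 3 76 26 0 0)) (.leaf 6 3 77 31 0 0)) (.sx (.sy (.leaf 5 3 77 25
  0 0) (.leaf 5 3 79 25 0 0)) (.leaf 5 3 78 26 0 0))) (.sy (.leaf 5 3 76 29 0 0) (.leaf 4 3 78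
  24 0 0))))) (.sy (.sl (.sx (.sy (.leaf 3 3 62 28 0 0) (.leaf 6 0 65 27 0 0)) (.leaf 5 0 63 26
  0 0)) (.leaf 6 3 76 38 0 0)) (.sl (.sx (.leaf 6 3 74 38 0 0) (.leaf 5 0 69 24 0 0)) (.leaf 8 0
  79 32 0 0))))) (.sy (.sx (.sy (.sl (.sx (.sy (.leaf 7 3 71 38 0 0) (.leaf 7 3 74 37 0 0))
  (.leaf 8 3 76 43 0 0)) (.sx (.sy (.leaf 6 3 77 31 0 0) (.leaf 6 3 79 30 0 0)) (.leaf 9 0 79 33
  0 0))) (.sl (.sx (.sy (.leaf 8 3 78 39 0 0) (.sx (.leaf 7 3 78 34 0 0) (.leaf 5 3 75 27 0 0)))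
  (.sy (.leaf 4 3 72 26 0 0) (.leaf 4 3 75 25 0 0))) (.sx (.sy (.leaf 6 3 82 29 0 0) (.leaf 6 3
  84 28 0 0)) (.leaf 9 0 84 31 0 0)))) (.sy (.sl (.leaf 8 0 72 36 0 0) (.leaf 7 0 77 29 0 0))
  (.sl (.leaf 8 0 76 33 0 0) (.leaf 7 0 82 27 0 0)))) (.sx (.sy (.sl (.sx (.sy (.sx (.leaf 7 3
  80 33 0 0) (.leaf 5 3 78 27 0 0)) (.sx (.leaf 7 3 83 32 0 0) (.leaf 5 3 80 26 0 0))) (.sy
  (.leaf 4 3 77 24 0 0) (.leaf 4 3 80 24 0 0))) (.sx (.sy (.leaf 6 3 86 27 0 0) (.leaf 6 3 89 27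
  0 0)) (.leaf 9 0 88 29 0 0))) (.sl (.sx (.sy (.sx (.leaf 6 3 84 28 0 0) (.leaf 5 3 83 25 0 0))
  (.leaf 7 3 87 31 0 0)) (.leaf 8 3 88 37 0 0)) (.sx (.sy (.leaf 6 3 91 26 0 0) (.leaf 6 3 93 25
  0 0)) (.leaf 5 3 92 24 0 0)))) (.sy (.sl (.leaf 7 0 80 28 0 0) (.leaf 7 0 87 25 0 0)) (.sl
  (.leaf 7 0 84 26 0 0) (.leaf 6 0 91 21 0 0))))))) (.sy (.sy (.sl (.sx (.sy (.sl (.leaf 7 3 70
  40 0 0) (.leaf 7 3 78 36 0 0)) (.sl (.leaf 8 3 76 42 0 0) (.leaf 7 3 83 34 0 0))) (.sy (.leaf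
  8 3 78 46 0 0) (.leaf 11 0 82 44 0 0))) (.sx (.leaf 14 0 94 44 0 0) (.leaf 8 0 88 29 0 0)))
  (.sl (.sx (.sy (.sl (.leaf 9 3 82 43 0 0) (.leaf 7 3 87 32 0 0)) (.sl (.leaf 11 3 89 47 0 0)
  (.leaf 7 3 91 31 0 0))) (.sy (.leaf 10 0 85 38 0 0) (.leaf 10 0 89 36 0 0))) (.sx (.sy (.leaf
  10 0 95 29 0 0) (.leaf 10 0 100 28 0 0)) (.leaf 7 0 96 23 0 0)))) (.sy (.sl (.sx (.sy (.sl
  (.sx (.leaf 8 3 89 34 0 0) (.leaf 8 0 86 26 0 0)) (.leaf 8 3 97 33 0 0)) (.sl (.sx (.sy (.leaf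
  5 3 88 23 0 0) (.leaf 5 3 91 22 0 0)) (.leaf 8 0 90 25 0 0)) (.leaf 9 3 102 35 0 0))) (.sy
  (.leaf 9 0 92 32 0 0) (.leaf 9 0 96 30 0 0))) (.sx (.sy (.leaf 10 0 104 27 0 0) (.leaf 7 3 107
  26 0 0)) (.leaf 7 0 104 21 0 0))) (.sl (.sx (.sy (.sl (.sx (.sy (.leaf 5 3 93 22 0 0) (.leaf 5
  3 95 21 0 0)) (.leaf 8 0 95 24 0 0)) (.leaf 11 3 107 39 0 0)) (.sl (.sx (.sy (.leaf 5 3 97 21
  0 0) (.leaf 5 3 99 20 0 0)) (.leaf 8 0 99 23 0 0)) (.leaf 8 3 108 29 0 0))) (.sy (.leaf 9 0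
  100 29 0 0) (.leaf 8 0 103 25 0 0))) (.sx (.sy (.leaf 7 3 111 25 0 0) (.leaf 7 3 115 25 0 0))
  (.leaf 7 0 112 20 0 0)))))) (.sl (.sy (.sl (.sy (.sl (.leaf 16 0 106 48 0 0) (.leaf 12 0 109
  34 0 0)) (.sl (.sx (.leaf 14 0 110 38 0 0) (.leaf 7 0 105 21 0 0)) (.leaf 14 0 118 37 0 0)))
  (.sy (.leaf 11 0 117 29 0 0) (.leaf 12 0 125 30 0 0))) (.sl (.sy (.sl (.sx (.sy (.leaf 6 3 111
  22 0 0) (.leaf 6 3 115 22 0 0)) (.leaf 7 0 113 20 0 0)) (.sx (.sy (.leaf 9 0 119 21 0 0)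
  (.leaf 9 0 123 20 0 0)) (.leaf 6 0 120 15 0 0))) (.sl (.sx (.sy (.leaf 6 3 118 21 0 0) (.leaf
  6 3 122 20 0 0)) (.leaf 6 0 119 16 0 0)) (.sx (.sy (.leaf 9 0 126 20 0 0) (.leaf 9 0 130 19 0
  0)) (.leaf 6 0 127 15 0 0)))) (.sy (.leaf 16 0 134 38 0 0) (.leaf 15 3 141 41 0 0)))) (.sy
  (.sl (.sy (.sl (.leaf 11 0 126 27 0 0) (.leaf 10 0 134 23 0 0)) (.sl (.leaf 11 0 132 26 0 0)
  (.leaf 10 0 140 22 0 0))) (.leaf 16 0 149 34 0 0)) (.sl (.sy (.sl (.leaf 12 0 139 27 0 0)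
  (.leaf 11 0 147 23 0 0)) (.sl (.leaf 12 0 145 26 0 0) (.leaf 11 0 152 22 0 0))) (.sy (.leaf 10
  0 154 20 0 0) (.leaf 10 0 160 19 0 0)))))) (.sl (.sl (.sl (.sy (.sy (.leaf 12 0 157 24 0 0)
  (.leaf 14 0 163 27 0 0)) (.sy (.sl (.leaf 10 0 163 19 0 0) (.leaf 9 0 171 16 0 0)) (.sl (.leaf
  10 0 168 18 0 0) (.leaf 9 0 176 15 0 0)))) (.sy (.sy (.leaf 11 0 174 19 0 0) (.leaf 12 0 179
  21 0 0)) (.sy (.leaf 12 0 183 20 0 0) (.leaf 12 0 188 20 0 0)))) (.sy (.sl (.leaf 16 0 194 26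
  0 0) (.leaf 10 0 205 15 0 0)) (.sl (.sy (.leaf 11 0 199 17 0 0) (.leaf 11 0 204 17 0 0))
  (.leaf 10 0 214 14 0 0)))) (.sl (.sl (.sy (.leaf 12 0 218 17 0 0) (.leaf 14 0 226 20 0 0))
  (.sy (.leaf 9 0 230 12 0 0) (.leaf 9 0 238 11 0 0))) (.sl (.sy (.leaf 11 0 243 14 0 0) (.leaf
  11 0 250 14 0 0)) (.leaf 14 0 259 17 0 0))))) (.sl (.sl (.sl (.sl (.sy (.leaf 10 0 268 11 0 0)
  (.leaf 10 0 274 11 0 0)) (.leaf 16 0 287 18 0 0)) (.sl (.leaf 14 0 303 15 0 0) (.leaf 11 0 315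
  11 0 0))) (.sl (.leaf 18 0 332 17 0 0) (.leaf 14 0 356 12 0 0))) (.sl (.sl (.leaf 18 0 385 15
  0 0) (.leaf 12 0 413 9 0 0)) (.sl (.leaf 12 0 437 9 0 0) (.leaf 11 0 461 7 0 0)))))

theorem cS5 : chkS tS5 (.m 10737418240) (.p 0) (.m 42949672960) (.p 0) 3 54 = true := by
  decide +kernel

/-- A subdivision tree. -/
def tJ8 : Tr :=
  (.sx (.sx (.sx (.sx (.sy (.sx (.sy (.sx (.sy (.sx (.leaf 7 3 60 43 58 45) (.leaf 7 2 58 39 55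
  41)) (.sx (.leaf 5 3 55 35 52 37) (.leaf 6 2 55 35 52 37))) (.sy (.sx (.leaf 7 2 58 39 56 41)
  (.leaf 5 3 55 35 53 37)) (.sx (.leaf 6 2 55 35 52 37) (.leaf 6 2 55 35 52 37)))) (.sx (.sy
  (.sx (.leaf 6 2 55 35 52 37) (.leaf 6 2 55 35 52 37)) (.leaf 7 2 58 39 55 41)) (.sy (.leaf 6 3
  58 39 55 41) (.leaf 6 2 55 35 52 37)))) (.sy (.sx (.sy (.sx (.leaf 6 2 55 35 53 37) (.leaf 6 2
  55 35 53 37)) (.sx (.leaf 6 2 55 35 53 37) (.leaf 6 2 55 35 53 37))) (.sy (.sx (.leaf 6 2 55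
  35 53 37) (.leaf 6 2 55 35 53 37)) (.leaf 6 3 58 40 56 41))) (.sx (.sy (.leaf 7 2 58 39 55 41)
  (.leaf 6 2 55 35 52 37)) (.sy (.leaf 6 2 55 35 53 37) (.leaf 6 2 56 35 52 37))))) (.sx (.sy
  (.sx (.sy (.leaf 6 2 55 35 52 37) (.leaf 6 2 56 34 52 37)) (.sy (.leaf 6 2 55 35 52 37) (.leaf
  6 2 56 35 52 37))) (.sx (.leaf 5 3 56 34 52 37) (.leaf 5 3 56 34 52 37))) (.sy (.sx (.sy
  (.leaf 6 2 56 35 52 37) (.leaf 4 3 53 30 49 33)) (.leaf 7 3 61 43 58 45)) (.sx (.leaf 6 2 56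
  35 52 37) (.leaf 6 2 56 35 52 38))))) (.sy (.sx (.sy (.sx (.sy (.leaf 9 3 66 51 64 52) (.leaf
  5 3 55 35 53 37)) (.sy (.leaf 7 2 58 40 56 41) (.leaf 6 2 56 36 53 37))) (.sx (.sy (.leaf 6 2
  56 35 53 37) (.leaf 6 2 56 35 52 37)) (.sy (.leaf 6 2 56 36 53 38) (.leaf 4 3 53 31 49 33))))
  (.sy (.sx (.sy (.leaf 5 3 55 36 53 37) (.leaf 6 2 56 36 53 38)) (.sy (.leaf 6 2 56 36 53 38)
  (.leaf 6 2 56 36 53 38))) (.sx (.sy (.leaf 6 2 56 36 53 38) (.leaf 5 2 53 31 50 33)) (.sy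
  (.leaf 5 2 53 31 50 33) (.leaf 5 2 53 31 50 33))))) (.sx (.sy (.sx (.leaf 7 2 59 39 55 42)
  (.leaf 6 2 56 35 52 38)) (.sx (.leaf 6 2 56 35 52 38) (.leaf 6 2 56 35 52 38))) (.sy (.sx
  (.leaf 6 2 56 36 53 38) (.leaf 6 2 56 36 53 38)) (.leaf 6 3 59 40 55 42))))) (.sx (.sy (.sx
  (.sy (.sx (.sy (.leaf 6 2 56 36 53 38) (.leaf 6 2 56 36 53 38)) (.sy (.leaf 6 2 56 36 54 38)
  (.leaf 5 2 53 32 50 34))) (.sx (.leaf 7 2 59 40 56 42) (.leaf 6 2 56 36 53 38))) (.sy (.sx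
  (.sy (.leaf 6 2 56 37 54 38) (.leaf 5 2 53 32 50 34)) (.sy (.leaf 5 2 53 32 51 34) (.leaf 5 2
  53 32 50 34))) (.sx (.leaf 6 2 56 36 53 38) (.leaf 6 2 56 37 53 39)))) (.sx (.sy (.sx (.leaf 6
  2 56 36 53 38) (.leaf 5 2 54 31 50 34)) (.leaf 6 2 57 36 53 39)) (.sy (.leaf 7 2 59 40 56 43)
  (.leaf 6 2 57 36 53 39)))) (.sy (.sx (.sy (.sx (.leaf 7 2 59 41 57 43) (.leaf 6 2 56 37 54
  39)) (.sx (.leaf 5 2 54 32 50 34) (.leaf 5 2 54 32 51 34))) (.sy (.sx (.leaf 5 2 54 33 51 34)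
  (.leaf 5 2 54 33 51 35)) (.leaf 6 2 57 37 54 39))) (.sx (.sy (.leaf 6 2 57 37 53 39) (.leaf 5
  2 54 32 50 35)) (.leaf 10 2 68 52 65 54))))) (.sx (.sx (.sy (.sx (.sy (.leaf 5 2 54 33 51 35)
  (.leaf 6 1 54 33 51 35)) (.leaf 6 2 57 38 54 40)) (.sx (.leaf 5 2 55 33 51 35) (.leaf 6 1 55
  33 51 36))) (.sy (.leaf 6 2 57 38 55 40) (.leaf 5 2 55 34 51 36))) (.sx (.leaf 6 2 58 39 55
  41) (.leaf 5 1 53 31 49 33)))) (.sx (.leaf 7 2 62 45 60 47) (.leaf 3 1 50 25 46 28)))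

theorem cJ8 : chkJ 1 tJ8 0 10737418240 1073741824 2147483648 = true := by
  decide +kernel

/-- A subdivision tree. -/
def tJ10 : Tr :=
  (.sx (.sy (.sx (.sy (.sx (.sy (.sx (.sy (.leaf 5 3 59 33 49 39) (.leaf 4 3 57 28 45 35)) (.sy
  (.leaf 4 3 56 29 46 36) (.leaf 5 2 57 29 46 36))) (.sx (.leaf 5 3 60 32 48 40) (.leaf 6 2 60
  33 48 41))) (.sy (.sx (.leaf 5 3 60 34 50 41) (.leaf 5 2 58 30 47 37)) (.leaf 7 2 63 38 53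
  46))) (.sx (.sy (.leaf 7 3 66 40 54 49) (.leaf 6 2 62 31 46 43)) (.sy (.leaf 5 2 60 29 44 39)
  (.leaf 4 2 59 23 39 35)))) (.sy (.sx (.sy (.leaf 6 2 61 36 51 42) (.leaf 5 2 59 31 47 39))
  (.leaf 5 2 59 33 48 40)) (.leaf 10 2 73 50 62 59))) (.sx (.sy (.sx (.leaf 6 2 64 31 45 44)
  (.leaf 5 2 63 27 42 41)) (.leaf 6 2 67 30 43 47)) (.leaf 8 2 71 41 53 55))) (.sy (.sx (.sy
  (.leaf 5 2 61 35 50 42) (.leaf 4 2 60 29 44 40)) (.leaf 5 1 61 32 48 41)) (.leaf 7 2 71 41 53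
  54)))

theorem cJ10 : chkJ 1 tJ10 0 10737418240 4294967296 12884901888 = true := by
  decide +kernel

end Vale.Agent.P139Z.Num
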