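import Vale.Agent.P139Z.Num.Chk

/-! Certificates, part 5. -/

namespace Vale.Agent.P139Z.Num

/-- A subdivision tree. -/
def tS2 : Tr :=
  (.sl (.sy (.sl (.sy (.leaf 25 0 24 339 0 0) (.leaf 25 0 26 313 0 0)) (.sl (.leaf 32 0 37 291 0
  0) (.leaf 45 0 60 254 0 0))) (.sl (.sy (.leaf 36 0 42 286 0 0) (.sl (.leaf 22 0 27 264 0 0)
  (.leaf 16 0 21 241 0 0))) (.sl (.sy (.leaf 16 0 21 240 0 0) (.leaf 32 0 52 207 0 0)) (.sy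
  (.leaf 32 0 55 194 0 0) (.sl (.leaf 28 0 57 164 0 0) (.sy (.leaf 16 0 38 133 0 0) (.leaf 36 0
  94 128 0 0))))))) (.sl (.sy (.sl (.sy (.leaf 28 0 45 208 0 0) (.sl (.leaf 20 0 36 180 0 0)
  (.leaf 50 0 105 160 0 0))) (.sy (.sl (.leaf 45 0 95 159 0 0) (.sy (.leaf 50 0 122 138 0 0)
  (.leaf 70 0 162 147 0 0))) (.sl (.sy (.leaf 50 0 123 137 0 0) (.sl (.leaf 45 0 128 118 0 0)
  (.leaf 40 0 140 96 0 0))) (.sy (.leaf 80 0 186 146 0 0) (.leaf 56 0 181 105 0 0))))) (.sl (.sy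
  (.sl (.sy (.leaf 20 0 46 143 0 0) (.leaf 45 0 105 144 0 0)) (.sy (.leaf 56 0 135 141 0 0) (.sl
  (.leaf 50 0 139 122 0 0) (.leaf 40 0 144 93 0 0)))) (.sl (.sy (.sl (.leaf 32 0 91 117 0 0)
  (.leaf 50 0 137 123 0 0)) (.sl (.leaf 63 0 152 141 0 0) (.leaf 50 0 155 109 0 0))) (.sy (.sl
  (.leaf 50 0 157 107 0 0) (.leaf 32 0 159 67 0 0)) (.leaf 45 0 178 85 0 0)))) (.sy (.sl (.sy
  (.sl (.leaf 50 0 153 110 0 0) (.leaf 36 0 158 76 0 0)) (.leaf 50 0 178 95 0 0)) (.leaf 70 0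
  217 110 0 0)) (.sl (.sy (.leaf 40 0 190 71 0 0) (.leaf 32 0 206 52 0 0)) (.leaf 45 0 237 64 0
  0))))) (.sl (.sy (.sl (.sy (.sl (.sy (.leaf 56 0 158 120 0 0) (.leaf 50 0 171 99 0 0)) (.leaf
  70 0 203 117 0 0)) (.sl (.leaf 56 0 203 94 0 0) (.leaf 45 0 222 68 0 0))) (.sy (.leaf 63 0 229
  93 0 0) (.leaf 45 0 254 60 0 0))) (.sl (.sy (.leaf 56 0 249 76 0 0) (.leaf 45 0 276 55 0 0))
  (.sy (.leaf 36 0 283 42 0 0) (.leaf 32 0 311 34 0 0)))) (.sy (.sl (.sy (.leaf 50 0 262 65 0 0)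
  (.leaf 40 0 289 46 0 0)) (.leaf 70 0 317 75 0 0)) (.sl (.leaf 70 0 336 71 0 0) (.leaf 56 0 363
  52 0 0))))))

theorem cS2 : chkS tS2 (.m 10737418240) (.p 0) (.m 858993459200) (.m 429496729600) 3 54 = true := by
  decide +kernel

/-- A subdivision tree. -/
def tS14 : Tr :=
  (.sy (.sy (.sy (.sy (.sy (.sy (.sy (.sy (.sx (.sl (.sy (.sx (.sl (.sy (.sx (.sy (.leaf 7 3 66
  40 0 0) (.leaf 6 3 65 35 0 0)) (.leaf 6 3 65 37 0 0)) (.sx (.leaf 7 3 68 39 0 0) (.leaf 6 3 67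
  36 0 0))) (.sy (.sx (.leaf 7 3 71 37 0 0) (.leaf 5 3 67 31 0 0)) (.sx (.leaf 6 3 70 33 0 0)
  (.leaf 5 3 69 30 0 0)))) (.sl (.sy (.leaf 7 3 69 43 0 0) (.leaf 6 3 68 38 0 0)) (.leaf 13 3 85
  59 0 0))) (.sx (.sl (.sy (.leaf 13 3 82 58 0 0) (.leaf 8 3 74 41 0 0)) (.sy (.leaf 8 3 76 40 0
  0) (.leaf 7 3 75 36 0 0))) (.sl (.leaf 10 0 72 40 0 0) (.leaf 9 0 74 35 0 0)))) (.sy (.sx (.sy
  (.sx (.leaf 6 3 74 31 0 0) (.leaf 8 0 72 29 0 0)) (.leaf 7 3 77 35 0 0)) (.leaf 6 3 76 34 0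
  0)) (.sx (.leaf 11 3 86 48 0 0) (.leaf 8 0 77 29 0 0)))) (.sl (.sy (.sx (.sl (.leaf 8 0 66 37
  0 0) (.leaf 7 0 68 31 0 0)) (.leaf 7 0 68 34 0 0)) (.sx (.leaf 11 0 77 45 0 0) (.leaf 6 0 69
  29 0 0))) (.leaf 11 0 82 44 0 0))) (.sx (.sl (.sy (.sx (.sl (.leaf 14 0 81 50 0 0) (.leaf 8 3
  79 38 0 0)) (.sl (.leaf 9 0 73 35 0 0) (.leaf 8 0 75 30 0 0))) (.sx (.sl (.leaf 11 0 79 39 0
  0) (.leaf 10 0 81 34 0 0)) (.leaf 11 0 81 40 0 0))) (.sy (.sx (.leaf 10 0 82 33 0 0) (.leaf 8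
  0 80 28 0 0)) (.leaf 12 0 88 40 0 0))) (.sl (.sy (.leaf 12 0 82 48 0 0) (.leaf 10 0 81 40 0
  0)) (.leaf 8 0 83 31 0 0)))) (.sy (.sx (.sl (.sy (.sx (.leaf 14 0 88 47 0 0) (.leaf 10 0 83 35
  0 0)) (.leaf 18 0 97 58 0 0)) (.leaf 14 0 95 44 0 0)) (.sl (.leaf 11 0 87 41 0 0) (.leaf 7 0
  87 25 0 0))) (.sx (.sl (.leaf 18 0 100 56 0 0) (.leaf 11 0 96 33 0 0)) (.leaf 14 0 98 47 0
  0)))) (.sy (.sy (.sx (.leaf 20 0 108 58 0 0) (.leaf 12 0 100 39 0 0)) (.leaf 28 0 123 75 0 0))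
  (.sy (.leaf 20 0 117 56 0 0) (.leaf 18 0 119 49 0 0)))) (.sy (.sy (.leaf 20 0 126 51 0 0)
  (.leaf 20 0 134 49 0 0)) (.leaf 28 0 150 62 0 0))) (.sy (.sy (.leaf 25 0 160 51 0 0) (.leaf 25
  0 172 48 0 0)) (.leaf 40 0 197 68 0 0))) (.sy (.sy (.leaf 36 0 214 56 0 0) (.leaf 36 0 232 52
  0 0)) (.leaf 63 0 266 80 0 0))) (.sy (.sy (.leaf 56 0 293 65 0 0) (.leaf 56 0 321 59 0 0))
  (.sy (.leaf 56 0 346 55 0 0) (.leaf 56 0 370 51 0 0)))) (.sy (.sy (.leaf 100 0 409 84 0 0)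
  (.leaf 100 0 448 76 0 0)) (.sy (.leaf 100 0 484 71 0 0) (.leaf 90 0 518 59 0 0))))

theorem cS14 : chkS tS14 (.m 10737418240) (.p 0) (.p 4294967296) (.p 1730871820288) 0 2 = true := by
  decide +kernel

/-- A subdivision tree. -/
def tS7 : Tr :=
  (.sl (.sl (.sl (.sl (.sl (.sy (.sx (.sy (.sl (.leaf 11 0 94 34 0 0) (.leaf 10 0 98 29 0 0))
  (.leaf 14 0 103 41 0 0)) (.leaf 10 0 98 33 0 0)) (.sx (.leaf 16 0 109 45 0 0) (.leaf 9 0 104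
  28 0 0))) (.sy (.sx (.sy (.sl (.leaf 10 0 104 27 0 0) (.leaf 9 0 109 23 0 0)) (.leaf 12 0 111
  32 0 0)) (.leaf 9 0 108 27 0 0)) (.sx (.leaf 14 0 117 36 0 0) (.leaf 8 0 114 22 0 0)))) (.sl
  (.sy (.sx (.sl (.leaf 10 0 117 24 0 0) (.leaf 10 0 124 23 0 0)) (.leaf 8 0 120 21 0 0)) (.leaf
  18 0 131 44 0 0)) (.leaf 18 0 138 42 0 0))) (.sl (.sl (.sy (.sl (.leaf 10 0 137 22 0 0) (.leaf
  10 0 144 21 0 0)) (.leaf 14 0 147 30 0 0)) (.leaf 12 0 154 24 0 0)) (.sl (.sy (.leaf 12 0 162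
  23 0 0) (.leaf 11 0 166 20 0 0)) (.leaf 11 0 175 19 0 0)))) (.sl (.sl (.sl (.leaf 14 0 187 24
  0 0) (.leaf 12 0 201 19 0 0)) (.leaf 16 0 220 23 0 0)) (.sl (.leaf 14 0 243 18 0 0) (.leaf 12
  0 265 14 0 0)))) (.sl (.sl (.sl (.leaf 14 0 293 15 0 0) (.leaf 11 0 320 11 0 0)) (.sl (.leaf
  10 0 343 9 0 0) (.leaf 10 0 367 8 0 0))) (.sl (.sl (.leaf 11 0 394 9 0 0) (.leaf 9 0 422 6 0
  0)) (.leaf 14 0 458 10 0 0))))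

theorem cS7 : chkS tS7 (.m 10737418240) (.p 0) (.p 17179869184) (.p 34359738368) 3 54 = true := by
  decide +kernel

end Vale.Agent.P139Z.Num
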