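import Vale.Agent.P139Z.Num.Chk

/-! Certificates, part 6. -/

namespace Vale.Agent.P139Z.Num

/-- A subdivision tree. -/
def tS1 : Tr :=
  (.sl (.sy (.sy (.sl (.leaf 32 0 21 497 0 0) (.leaf 22 0 16 461 0 0)) (.sl (.leaf 32 0 23 460 0
  0) (.leaf 22 0 17 421 0 0))) (.sy (.sl (.leaf 40 0 32 421 0 0) (.leaf 25 0 22 377 0 0)) (.sl
  (.sy (.leaf 22 0 19 387 0 0) (.leaf 22 0 20 364 0 0)) (.leaf 40 0 41 329 0 0)))) (.sl (.sy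
  (.sy (.leaf 22 0 18 396 0 0) (.leaf 28 0 27 349 0 0)) (.sy (.leaf 70 0 78 304 0 0) (.sl (.leaf
  36 0 46 264 0 0) (.sy (.leaf 22 0 34 210 0 0) (.leaf 70 0 120 199 0 0))))) (.sy (.sl (.sy
  (.leaf 20 0 20 318 0 0) (.leaf 40 0 51 261 0 0)) (.sy (.leaf 50 0 68 247 0 0) (.sl (.leaf 63 0
  103 207 0 0) (.sy (.leaf 45 0 91 166 0 0) (.leaf 90 0 173 178 0 0))))) (.sl (.sy (.sl (.leaf
  63 0 96 222 0 0) (.sy (.leaf 25 0 48 170 0 0) (.leaf 70 0 141 169 0 0))) (.sl (.sy (.leaf 80 0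
  146 187 0 0) (.sl (.leaf 70 0 150 158 0 0) (.sy (.leaf 50 0 141 120 0 0) (.leaf 56 0 166 114 0
  0)))) (.sy (.sy (.leaf 70 0 161 147 0 0) (.leaf 80 0 186 147 0 0)) (.sy (.leaf 70 0 193 123 0
  0) (.leaf 56 0 199 95 0 0))))) (.sy (.sl (.sy (.leaf 80 0 156 174 0 0) (.sy (.leaf 70 0 167
  143 0 0) (.leaf 80 0 191 143 0 0))) (.sy (.sy (.leaf 80 0 183 149 0 0) (.leaf 80 0 198 138 0
  0)) (.leaf 90 0 227 135 0 0))) (.sl (.sy (.leaf 100 0 228 150 0 0) (.leaf 63 0 235 91 0 0))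
  (.sy (.leaf 63 0 242 88 0 0) (.leaf 50 0 269 63 0 0))))))))

theorem cS1 : chkS tS1 (.m 10737418240) (.p 0) (.m 1730871820288) (.m 858993459200) 3 54 = true := by
  decide +kernel

/-- A subdivision tree. -/
def tJ4 : Tr :=
  (.sy (.sx (.sy (.sx (.sy (.sx (.sy (.leaf 5 3 54 36 54 36) (.leaf 5 3 54 36 54 36)) (.sy
  (.leaf 6 2 54 36 54 36) (.leaf 6 2 54 36 54 36))) (.sx (.sy (.leaf 5 3 54 36 54 36) (.leaf 6 2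
  54 36 54 36)) (.sy (.leaf 6 2 54 36 54 36) (.leaf 6 2 54 36 54 37)))) (.sy (.sx (.sy (.leaf 6
  2 54 36 54 36) (.leaf 6 2 54 36 54 37)) (.sy (.leaf 6 2 54 37 54 37) (.leaf 6 2 54 36 54 37)))
  (.sx (.sy (.leaf 6 2 54 36 54 37) (.leaf 6 2 54 36 54 37)) (.sy (.leaf 6 2 54 36 54 37) (.leaf
  6 2 54 36 54 37))))) (.sx (.sy (.sx (.sy (.leaf 6 2 54 36 54 37) (.leaf 6 2 54 36 54 37)) (.sy
  (.leaf 6 2 54 36 54 37) (.leaf 6 2 54 36 54 37))) (.sx (.sy (.leaf 6 2 54 36 54 37) (.leaf 6 2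
  55 36 54 37)) (.sy (.leaf 6 2 55 36 54 37) (.leaf 6 2 55 36 54 37)))) (.sy (.sx (.sy (.leaf 6
  2 54 36 54 37) (.leaf 6 2 55 36 54 37)) (.sy (.leaf 6 2 55 36 54 37) (.leaf 6 2 55 36 54 37)))
  (.sx (.sy (.leaf 6 2 55 36 54 37) (.leaf 6 2 55 36 54 37)) (.sy (.leaf 6 2 55 36 54 37) (.leaf
  6 2 55 36 54 37)))))) (.sy (.sx (.sy (.sx (.sy (.leaf 6 2 54 37 54 37) (.leaf 6 2 54 37 54
  37)) (.sy (.leaf 6 2 54 37 54 37) (.leaf 6 2 54 37 54 37))) (.sx (.sy (.leaf 6 2 54 37 54 37)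
  (.leaf 6 2 55 36 54 37)) (.sy (.leaf 6 2 55 37 54 37) (.leaf 6 2 55 37 54 37)))) (.sy (.sx
  (.sy (.leaf 6 2 54 37 54 37) (.leaf 6 2 54 37 54 37)) (.sy (.leaf 6 2 54 37 54 37) (.leaf 6 2
  55 37 54 37))) (.sx (.sy (.leaf 6 2 55 37 54 37) (.leaf 6 2 55 37 54 37)) (.sy (.leaf 6 2 55
  37 54 37) (.leaf 6 2 55 37 54 37))))) (.sx (.sy (.sx (.sy (.leaf 6 2 55 36 54 37) (.leaf 6 2
  55 36 54 37)) (.sy (.leaf 6 2 55 37 54 37) (.leaf 6 2 55 36 54 37))) (.sx (.sy (.leaf 6 2 55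
  36 54 37) (.leaf 6 2 55 36 54 37)) (.sy (.leaf 6 2 55 36 54 37) (.leaf 6 2 55 36 54 37))))
  (.sy (.sx (.sy (.leaf 6 2 55 37 54 37) (.leaf 6 2 55 37 54 37)) (.sy (.leaf 6 2 55 37 54 37)
  (.leaf 6 2 55 37 54 37))) (.sx (.sy (.leaf 6 2 55 37 54 37) (.leaf 7 1 55 36 54 37)) (.sy
  (.leaf 6 2 55 37 54 37) (.leaf 7 1 55 37 54 37))))))) (.sx (.sy (.sx (.sy (.sx (.sy (.leaf 6 2
  55 36 53 37) (.leaf 6 2 55 36 53 37)) (.sy (.leaf 6 2 55 36 54 37) (.leaf 6 2 55 36 53 37)))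
  (.sx (.leaf 9 3 66 51 65 52) (.leaf 6 3 58 40 56 41))) (.sy (.sx (.sy (.leaf 6 2 55 36 54 37)
  (.leaf 6 2 55 36 54 37)) (.leaf 9 3 66 51 65 52)) (.sx (.leaf 7 2 58 40 56 41) (.leaf 7 2 58
  40 56 41)))) (.sx (.sy (.sx (.leaf 7 2 58 40 56 41) (.leaf 6 2 55 36 53 37)) (.sx (.leaf 6 2
  55 36 53 37) (.leaf 6 2 55 36 53 37))) (.sy (.sx (.leaf 6 2 55 36 53 37) (.leaf 6 2 55 36 53
  37)) (.sx (.leaf 6 2 55 36 53 37) (.leaf 6 2 55 36 53 37))))) (.sy (.sx (.sy (.sx (.leaf 7 3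
  61 44 59 45) (.leaf 8 2 61 44 60 45)) (.sx (.leaf 7 2 58 40 57 41) (.leaf 6 2 55 36 54 37)))
  (.sy (.sx (.leaf 6 3 58 41 57 41) (.leaf 7 2 58 41 57 41)) (.sx (.leaf 6 2 55 36 54 37) (.leaf
  6 2 55 36 54 37)))) (.sx (.sy (.sx (.leaf 6 2 55 36 53 37) (.leaf 6 2 55 36 53 37)) (.leaf 9 3
  66 51 65 52)) (.sy (.sx (.leaf 6 2 55 36 54 37) (.leaf 6 2 55 36 54 38)) (.leaf 7 2 58 40 56
  42))))))

theorem cJ4 : chkJ 1 tJ4 671088640 1342177280 0 1073741824 = true := by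
  decide +kernel

/-- A subdivision tree. -/
def tJ9 : Tr :=
  (.sx (.sx (.sx (.sy (.sx (.sy (.sx (.sy (.sx (.leaf 6 2 56 34 51 37) (.leaf 6 2 56 34 51 37))
  (.leaf 5 3 56 34 51 38)) (.sy (.leaf 6 3 59 39 55 42) (.leaf 6 2 57 34 51 38))) (.sx (.sy
  (.leaf 6 2 57 34 51 38) (.leaf 4 3 54 29 47 33)) (.leaf 7 3 62 42 57 46))) (.sy (.sx (.sy
  (.leaf 5 3 56 35 52 38) (.leaf 6 2 57 35 52 38)) (.sy (.leaf 6 2 57 35 52 38) (.leaf 5 2 54 30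
  49 34))) (.sx (.leaf 6 3 60 39 54 43) (.leaf 6 2 57 35 51 39)))) (.sx (.sy (.sx (.leaf 5 3 57
  33 50 38) (.leaf 6 2 58 34 50 39)) (.leaf 6 3 61 38 53 43)) (.sy (.sx (.leaf 4 3 55 30 47 34)
  (.leaf 5 2 55 30 47 35)) (.leaf 5 3 58 34 50 40)))) (.sy (.sx (.sy (.sx (.sy (.leaf 5 2 54 31
  49 34) (.leaf 5 2 54 31 49 34)) (.leaf 7 2 60 40 56 43)) (.sx (.leaf 6 2 58 35 52 39) (.leaf 5
  2 55 31 49 35))) (.sy (.sx (.leaf 6 2 57 36 53 39) (.leaf 5 2 55 32 50 35)) (.leaf 6 2 58 36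
  52 40))) (.sx (.sy (.leaf 6 2 58 35 51 40) (.leaf 5 2 56 30 47 36)) (.sy (.leaf 5 2 56 31 48
  36) (.leaf 5 2 57 31 48 37))))) (.sx (.sy (.sx (.sy (.leaf 6 2 58 37 53 40) (.leaf 5 2 56 32
  50 36)) (.leaf 6 2 59 38 54 41)) (.sx (.leaf 5 2 57 32 49 37) (.leaf 4 2 55 28 46 33))) (.sy
  (.leaf 6 2 59 38 54 42) (.leaf 5 2 58 34 50 39)))) (.sx (.sx (.leaf 5 2 58 35 52 40) (.leaf 4
  1 54 27 46 32)) (.leaf 4 1 55 30 47 34)))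

theorem cJ9 : chkJ 1 tJ9 0 10737418240 2147483648 4294967296 = true := by
  decide +kernel

end Vale.Agent.P139Z.Num
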