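import Vale.Agent.P139Z.Num.Chk

/-! Certificates, part 7. -/

namespace Vale.Agent.P139Z.Num

/-- A subdivision tree. -/
def tS3 : Tr :=
  (.sl (.sl (.sy (.sl (.sy (.leaf 14 0 19 236 0 0) (.leaf 16 0 24 213 0 0)) (.sy (.leaf 12 0 18
  210 0 0) (.leaf 14 0 24 184 0 0))) (.sl (.sy (.leaf 25 0 43 191 0 0) (.sy (.leaf 12 0 23 165 0
  0) (.leaf 16 0 34 151 0 0))) (.sy (.leaf 36 0 72 167 0 0) (.sl (.leaf 32 0 73 146 0 0) (.sy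
  (.leaf 11 0 30 113 0 0) (.leaf 25 0 74 110 0 0)))))) (.sl (.sy (.sy (.leaf 32 0 62 173 0 0)
  (.sl (.leaf 18 0 39 149 0 0) (.leaf 45 0 105 144 0 0))) (.sy (.sl (.sy (.leaf 16 0 42 121 0 0)
  (.leaf 32 0 86 123 0 0)) (.sy (.sl (.leaf 22 0 74 97 0 0) (.leaf 25 0 94 87 0 0)) (.sl (.sy
  (.leaf 22 0 85 84 0 0) (.leaf 19 3 93 77 0 0)) (.leaf 28 0 114 81 0 0)))) (.sl (.sy (.sl
  (.leaf 18 0 61 95 0 0) (.sy (.leaf 15 3 73 79 0 0) (.leaf 19 3 90 80 0 0))) (.sl (.sy (.leaf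
  18 0 71 81 0 0) (.leaf 19 3 88 82 0 0)) (.sy (.leaf 22 3 103 80 0 0) (.leaf 25 0 111 74 0
  0)))) (.sy (.sl (.sy (.leaf 22 3 106 77 0 0) (.leaf 25 0 114 72 0 0)) (.leaf 22 0 123 59 0 0))
  (.sl (.leaf 28 0 130 71 0 0) (.leaf 18 0 137 42 0 0)))))) (.sy (.sy (.sl (.leaf 40 0 97 138 0
  0) (.sy (.leaf 45 0 122 124 0 0) (.sl (.leaf 36 0 116 104 0 0) (.leaf 28 0 121 77 0 0)))) (.sl
  (.sy (.leaf 40 0 112 120 0 0) (.sl (.leaf 36 0 113 107 0 0) (.leaf 28 0 116 80 0 0))) (.sy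
  (.sl (.leaf 36 0 128 94 0 0) (.leaf 25 0 133 62 0 0)) (.leaf 40 0 151 89 0 0)))) (.sy (.sl
  (.sy (.sl (.leaf 45 0 137 110 0 0) (.leaf 25 0 128 64 0 0)) (.leaf 40 0 148 91 0 0)) (.sy
  (.leaf 32 0 157 68 0 0) (.leaf 25 0 167 49 0 0))) (.sl (.sy (.leaf 28 0 151 62 0 0) (.leaf 25
  0 163 50 0 0)) (.leaf 40 0 195 69 0 0)))))) (.sl (.sl (.sy (.sl (.sy (.sl (.sy (.leaf 36 0 134
  90 0 0) (.leaf 32 0 144 74 0 0)) (.leaf 40 0 168 80 0 0)) (.sl (.leaf 36 0 168 72 0 0) (.leaf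
  28 0 186 50 0 0))) (.sy (.leaf 36 0 194 62 0 0) (.leaf 32 0 216 49 0 0))) (.sl (.sy (.leaf 45
  0 208 73 0 0) (.leaf 40 0 228 59 0 0)) (.sy (.leaf 25 0 236 35 0 0) (.leaf 22 0 256 28 0 0))))
  (.sy (.sl (.sy (.leaf 32 0 227 47 0 0) (.leaf 25 0 247 33 0 0)) (.leaf 45 0 273 56 0 0)) (.sl
  (.sy (.leaf 22 0 266 27 0 0) (.leaf 20 0 285 23 0 0)) (.leaf 45 0 307 49 0 0)))) (.sl (.sy
  (.sl (.leaf 45 0 308 49 0 0) (.leaf 32 0 340 31 0 0)) (.sl (.sy (.leaf 20 0 329 20 0 0) (.leaf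
  20 0 344 19 0 0)) (.leaf 28 0 369 25 0 0))) (.sy (.leaf 50 0 385 44 0 0) (.sl (.leaf 25 0 396
  21 0 0) (.leaf 22 0 422 17 0 0))))))

theorem cS3 : chkS tS3 (.m 10737418240) (.p 0) (.m 429496729600) (.m 171798691840) 3 54 = true := by
  decide +kernel

/-- A subdivision tree. -/
def tJ5 : Tr :=
  (.sx (.sy (.sx (.sy (.sx (.sy (.sx (.sy (.leaf 6 2 55 37 54 37) (.leaf 6 2 55 37 54 37)) (.sy
  (.leaf 7 2 58 41 57 41) (.leaf 7 2 58 41 57 41))) (.sx (.sy (.leaf 6 2 55 37 54 37) (.leaf 6 2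
  55 37 54 37)) (.sy (.leaf 6 2 55 37 54 37) (.leaf 6 2 55 37 54 37)))) (.sy (.sx (.sy (.leaf 6
  3 58 41 57 41) (.leaf 7 2 58 41 57 41)) (.sy (.sx (.leaf 6 2 55 37 55 37) .skip) (.sx (.leaf 6
  2 55 37 55 37) .skip))) (.sx (.sy (.leaf 7 2 58 41 57 41) (.leaf 7 2 58 41 57 41)) (.sy (.sx
  (.leaf 6 2 55 37 55 37) (.leaf 6 2 55 37 55 37)) (.leaf 6 3 58 41 57 42))))) (.sx (.sy (.sx
  (.sy (.leaf 6 2 55 37 54 37) (.leaf 6 2 55 37 54 37)) (.sy (.leaf 6 2 55 37 54 37) (.leaf 6 2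
  55 37 54 37))) (.sx (.sy (.leaf 6 2 55 37 54 37) (.leaf 7 1 55 37 54 37)) (.sy (.leaf 6 2 55
  37 54 37) (.leaf 7 1 55 37 54 37)))) (.sy (.sx (.sy (.leaf 6 2 55 37 54 37) (.leaf 6 2 55 37
  54 37)) (.sy (.leaf 7 2 58 41 57 42) (.leaf 6 2 55 37 54 37))) (.sx (.sy (.leaf 6 2 55 37 54
  37) (.leaf 7 1 55 37 54 38)) (.sy (.leaf 6 2 55 37 54 38) (.leaf 6 2 55 37 54 38)))))) (.sy
  (.sx (.sy .skip (.sx (.sy .skip (.sx (.leaf 6 2 55 37 54 37) .skip)) .skip)) .skip) (.sx (.sy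
  (.sx (.sy (.leaf 8 2 61 45 60 45) (.leaf 7 2 58 41 57 42)) (.sy .skip (.leaf 7 2 58 41 57
  42))) (.sx (.sy (.leaf 6 2 55 37 54 38) (.leaf 6 2 55 37 54 38)) (.sy (.leaf 6 2 55 37 54 38)
  (.leaf 6 2 55 37 54 38)))) (.sy .skip (.sx (.sy (.leaf 6 2 55 37 54 38) (.leaf 6 2 55 37 54
  38)) (.sy .skip (.leaf 6 2 55 37 54 38))))))) (.sx (.sy (.sx (.sy (.sx (.leaf 7 2 58 41 57 42)
  (.leaf 6 3 58 41 57 42)) (.sx (.leaf 6 2 55 36 54 37) (.leaf 6 2 55 37 54 38))) (.sy (.sx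
  (.leaf 8 2 61 45 60 46) (.leaf 8 2 61 45 60 46)) (.sx (.leaf 6 2 55 37 54 38) (.leaf 6 2 55 37
  54 38)))) (.sx (.sy (.sx (.leaf 6 2 55 36 54 38) (.leaf 6 2 55 36 54 38)) (.leaf 7 2 58 41 57
  42)) (.sy (.sx (.leaf 7 1 56 37 54 38) (.leaf 7 1 56 37 54 38)) (.leaf 6 2 56 37 54 38))))
  (.sy (.sx (.sy (.sx (.leaf 10 2 66 52 65 53) (.sy (.leaf 7 1 55 37 54 38) (.leaf 5 2 53 32 51
  33))) (.sx (.leaf 6 2 55 37 54 38) (.leaf 6 2 56 37 54 38))) (.sy (.sx (.sy (.leaf 7 1 55 37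
  54 38) (.leaf 5 2 53 33 51 33)) (.sy (.leaf 7 1 55 37 54 38) (.leaf 5 2 53 33 51 34))) (.sx
  (.leaf 6 2 56 37 54 38) (.leaf 6 2 56 37 54 38)))) (.sx (.sy (.sx (.leaf 7 1 56 37 54 38)
  (.leaf 5 2 53 32 51 34)) (.leaf 6 2 56 37 54 38)) (.sy (.leaf 7 2 59 41 57 42) (.leaf 6 2 56
  37 54 38)))))) (.sy (.sx (.sy .skip (.sx (.sy .skip (.sx (.sy .skip (.leaf 6 2 55 37 54 38))
  (.sy .skip (.leaf 6 2 56 37 55 38)))) (.sy .skip (.sx (.sy .skip (.leaf 7 1 56 37 55 38)) (.sy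
  .skip (.leaf 5 2 53 33 52 34)))))) (.sy (.sx .skip (.sy (.sx .skip (.leaf 6 2 55 38 55 38))
  (.sx .skip (.leaf 6 2 56 38 55 38)))) (.sx (.sy (.sx .skip (.sy .skip (.leaf 5 2 53 33 52
  34))) (.sx (.leaf 7 2 59 42 58 42) (.leaf 6 2 56 38 55 38))) (.sy (.sx (.leaf 6 2 56 38 55 38)
  (.leaf 5 2 53 34 52 34)) (.leaf 7 2 59 42 58 43))))) (.sx (.sy (.sx (.sy (.sx (.leaf 8 2 61 45
  60 46) (.leaf 7 2 58 41 57 42)) (.sx (.leaf 6 2 56 37 54 38) (.leaf 7 1 56 37 54 38))) (.sy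
  (.sx (.leaf 6 2 56 37 54 38) (.leaf 6 2 56 37 55 38)) (.leaf 7 2 59 41 57 42))) (.sx (.sy
  (.leaf 6 2 56 37 54 38) (.leaf 7 1 56 37 54 38)) (.sy (.leaf 6 2 56 37 54 38) (.leaf 5 2 53 33
  51 34)))) (.sy (.sx (.sy (.sx (.leaf 7 1 56 38 55 38) (.leaf 5 2 53 33 52 34)) (.leaf 6 2 56
  38 55 39)) (.sy (.leaf 6 2 56 38 55 39) (.leaf 5 2 53 33 52 34))) (.sx (.sy (.leaf 5 2 53 33
  51 34) (.leaf 6 1 53 33 51 34)) (.leaf 6 2 56 38 54 39))))))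

theorem cJ5 : chkJ 1 tJ5 1342177280 2684354560 0 1073741824 = true := by
  decide +kernel

/-- A subdivision tree. -/
def tS9 : Tr :=
  (.sl (.sl (.sl (.sy (.sl (.sy (.leaf 25 0 148 56 0 0) (.leaf 22 0 153 47 0 0)) (.leaf 28 0 167
  55 0 0)) (.sl (.leaf 32 0 169 63 0 0) (.leaf 22 0 177 41 0 0))) (.sl (.sy (.leaf 22 0 179 40 0
  0) (.leaf 20 0 191 34 0 0)) (.sy (.leaf 18 0 195 30 0 0) (.leaf 18 0 207 28 0 0)))) (.sl (.sl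
  (.sy (.leaf 22 0 218 33 0 0) (.leaf 18 0 228 25 0 0)) (.sy (.leaf 14 0 240 18 0 0) (.leaf 14 0
  250 18 0 0))) (.sl (.leaf 25 0 267 31 0 0) (.leaf 20 0 287 23 0 0)))) (.sl (.sl (.sl (.leaf 25
  0 313 26 0 0) (.leaf 16 0 338 15 0 0)) (.sl (.leaf 16 0 360 14 0 0) (.leaf 14 0 382 12 0 0)))
  (.sl (.sl (.leaf 16 0 409 12 0 0) (.leaf 14 0 435 10 0 0)) (.leaf 20 0 470 14 0 0))))

theorem cS9 : chkS tS9 (.m 10737418240) (.p 0) (.p 68719476736) (.p 128849018880) 3 54 = true := by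
  decide +kernel

/-- A subdivision tree. -/
def tJ7 : Tr :=
  (.sx (.leaf 2 4 53 33 52 34) (.leaf 3 1 49 26 47 27))

theorem cJ7 : chkJ 1 tJ7 5368709120 10737418240 0 1073741824 = true := by
  decide +kernel

end Vale.Agent.P139Z.Num
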