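import Vale.Agent.P139Z.Num.Chk

/-! Certificates, part 8. -/

namespace Vale.Agent.P139Z.Num

/-- A subdivision tree. -/
def tJ2 : Tr :=
  (.sy (.sx (.sy (.sx (.sy (.sx (.sy (.sx (.sy (.sx (.leaf 6 2 59 32 59 33) (.leaf 6 2 59 33 59
  33)) (.sx (.leaf 6 2 60 32 58 33) (.leaf 6 2 60 32 59 33))) (.sy (.leaf 7 2 62 37 62 38)
  (.leaf 7 2 63 37 61 38))) (.sx (.sy (.sx (.leaf 6 2 60 32 58 33) (.leaf 6 2 60 32 58 33)) (.sx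
  (.leaf 7 2 63 36 60 38) (.leaf 6 2 61 32 58 34))) (.sy (.leaf 7 2 63 37 61 38) (.leaf 8 2 66
  41 63 42)))) (.sy (.sx (.leaf 7 2 63 38 62 38) (.leaf 5 2 58 30 57 30)) (.sx (.leaf 8 2 66 41
  64 43) (.leaf 5 2 59 30 57 31)))) (.sx (.sy (.sx (.sy (.sx (.leaf 6 4 66 40 62 42) (.leaf 6 2
  61 32 57 34)) (.sx (.sy (.leaf 6 2 61 31 57 34) (.leaf 5 3 61 31 57 34)) (.leaf 7 2 64 36 60
  38))) (.sy (.sx (.leaf 6 2 61 32 58 34) (.leaf 5 2 59 28 55 30)) (.sx (.leaf 6 2 62 32 57 34)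
  (.leaf 5 2 60 28 55 30)))) (.sx (.sy (.sx (.sy (.leaf 7 2 64 35 59 38) (.leaf 5 4 64 35 59
  38)) (.sy (.leaf 6 2 62 31 57 34) (.leaf 6 2 62 31 56 34))) (.sx (.sy (.sx (.leaf 6 2 62 31 56
  34) (.leaf 6 2 62 31 56 34)) (.sx (.leaf 7 2 65 35 58 39) (.leaf 6 2 62 31 56 34))) (.sy
  (.leaf 6 2 62 31 56 35) (.leaf 7 2 65 35 59 39)))) (.sy (.sx (.leaf 6 2 62 32 57 35) (.leaf 7
  1 62 32 57 35)) (.sx (.leaf 7 2 65 36 59 39) (.leaf 6 2 63 32 57 35))))) (.sy (.sx (.sy (.leaf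
  6 2 62 33 58 35) (.leaf 6 2 62 33 58 35)) (.leaf 5 2 60 29 56 31)) (.sx (.sy (.leaf 6 2 63 33
  57 36) (.leaf 6 2 63 32 57 36)) (.leaf 7 1 63 33 58 36))))) (.sy (.sx (.sy (.leaf 3 4 59 31 58
  32) (.leaf 3 4 60 31 57 32)) (.leaf 2 4 58 28 56 28)) (.sx (.sy (.leaf 3 4 61 30 56 32) (.leaf
  3 4 61 30 55 33)) (.leaf 2 4 59 27 54 29)))) (.sx (.sy (.sx (.sy (.sx (.sy (.sx (.sy (.sx
  (.leaf 7 2 65 35 58 39) (.leaf 6 2 63 31 56 35)) (.sx (.sy (.leaf 7 2 65 35 58 39) (.leaf 7 2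
  65 35 58 39)) (.leaf 7 2 65 35 58 39))) (.sy (.leaf 7 2 65 35 59 39) (.leaf 8 2 67 39 61 43)))
  (.sx (.sy (.sx (.sy (.leaf 7 2 65 35 58 39) (.leaf 7 2 65 35 58 39)) (.leaf 7 2 65 35 58 39))
  (.sx (.sy (.leaf 6 3 65 35 58 39) (.leaf 6 3 65 35 58 39)) (.leaf 7 2 65 35 58 39))) (.sy (.sx
  (.leaf 6 2 63 31 55 35) (.leaf 7 1 63 31 55 35)) (.sx (.leaf 6 2 63 31 55 35) (.leaf 7 1 63 31
  55 35))))) (.sy (.sx (.leaf 7 2 65 36 59 40) (.leaf 6 2 63 32 56 36)) (.sx (.leaf 8 2 68 39 61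
  44) (.leaf 6 2 64 31 56 36)))) (.sx (.sy (.sx (.sy (.sx (.sy (.leaf 7 2 65 34 58 39) (.leaf 7
  2 66 34 57 39)) (.leaf 7 2 66 35 58 39)) (.sx (.leaf 7 3 68 38 60 43) (.leaf 7 2 66 35 57
  40))) (.sy (.leaf 8 2 68 39 61 44) (.leaf 7 2 66 35 58 40))) (.sx (.sy (.sx (.leaf 7 2 66 34
  57 40) (.leaf 6 2 64 30 54 35)) (.leaf 8 2 68 38 60 44)) (.sy (.leaf 5 3 64 30 55 36) (.leaf 6
  2 64 30 54 36)))) (.sy (.sx (.leaf 7 2 66 35 58 40) (.leaf 6 2 64 31 55 36)) (.sx (.leaf 6 2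
  64 31 55 36) (.leaf 7 1 64 31 55 36))))) (.sy (.sx (.sy (.leaf 6 2 63 32 56 36) (.leaf 6 2 64
  32 56 36)) (.leaf 7 1 64 33 57 37)) (.sx (.sy (.leaf 6 2 64 32 56 37) (.leaf 6 2 65 32 55 37))
  (.leaf 5 2 63 28 53 33)))) (.sx (.sy (.sx (.sy (.sx (.sy (.leaf 7 2 66 34 57 40) (.leaf 6 2 64
  30 54 36)) (.leaf 5 3 64 30 54 36)) (.sx (.leaf 6 2 65 30 53 36) (.leaf 6 2 65 30 54 36)))
  (.sy (.leaf 6 3 67 35 57 41) (.leaf 6 2 65 30 54 37))) (.sx (.sy (.leaf 6 3 67 34 56 41)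
  (.leaf 6 2 66 29 53 37)) (.leaf 7 2 68 34 56 41))) (.sy (.sx (.leaf 6 2 65 31 55 37) (.leaf 5
  2 64 28 52 34)) (.leaf 8 2 70 39 60 46)))) (.sy (.sx (.sy (.leaf 5 2 62 29 55 34) (.leaf 5 2
  63 29 54 34)) (.leaf 6 1 63 31 55 35)) (.sx (.leaf 6 2 66 33 55 39) (.leaf 4 2 63 25 50
  32))))) (.sy (.sx (.leaf 3 4 62 34 59 36) (.leaf 1 3 57 23 53 24)) (.sx (.leaf 6 2 67 36 58
  42) (.leaf 4 1 62 26 51 32)))) (.sx (.sy (.sx (.sy (.sx (.sy (.sx (.leaf 5 3 66 29 52 37)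
  (.leaf 6 2 67 30 53 38)) (.leaf 6 3 69 33 55 42)) (.sy (.leaf 6 2 67 31 53 39) (.leaf 6 2 68
  30 52 39))) (.sx (.leaf 7 3 72 37 57 47) (.leaf 6 2 69 30 51 40))) (.sy (.leaf 8 2 72 40 60
  49) (.leaf 6 2 70 32 53 42))) (.sx (.sy (.sx (.leaf 5 3 70 28 49 40) (.leaf 5 2 69 25 46 37))
  (.leaf 7 2 74 32 51 46)) (.leaf 6 2 72 31 51 44))) (.sy (.leaf 8 2 75 43 62 52) (.leaf 5 2 72
  31 50 44))))

theorem cJ2 : chkJ 2 tJ2 0 10737418240 0 12884901888 = true := by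
  decide +kernel

/-- A subdivision tree. -/
def tS4 : Tr :=
  (.sl (.sl (.sl (.sy (.sy (.sl (.leaf 11 0 24 139 0 0) (.leaf 10 0 25 120 0 0)) (.sl (.leaf 18
  0 46 125 0 0) (.leaf 25 0 71 116 0 0))) (.sy (.sl (.sy (.leaf 6 3 26 102 0 0) (.leaf 13 3 52
  99 0 0)) (.sy (.leaf 13 3 57 89 0 0) (.sl (.leaf 13 3 62 82 0 0) (.leaf 11 3 65 68 0 0))))
  (.sl (.sy (.sl (.leaf 6 3 33 82 0 0) (.leaf 13 3 61 84 0 0)) (.sl (.sy (.leaf 3 3 25 66 0 0)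
  (.leaf 7 3 45 67 0 0)) (.sy (.leaf 11 3 62 72 0 0) (.sx (.sl (.leaf 4 3 38 47 0 0) (.leaf 7 3
  56 50 0 0)) (.leaf 7 3 57 57 0 0))))) (.sy (.sl (.sy (.leaf 11 3 63 70 0 0) (.sx (.leaf 13 3
  71 69 0 0) (.leaf 7 3 58 56 0 0))) (.sy (.leaf 9 3 68 55 0 0) (.leaf 11 3 78 57 0 0))) (.sl
  (.sy (.sx (.sl (.leaf 7 3 57 49 0 0) (.leaf 8 3 68 47 0 0)) (.leaf 8 3 67 54 0 0)) (.sx (.sl
  (.leaf 8 3 66 48 0 0) (.leaf 9 3 76 46 0 0)) (.leaf 11 3 79 58 0 0))) (.sy (.leaf 11 3 83 53 0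
  0) (.leaf 16 0 92 55 0 0))))))) (.sy (.sl (.sy (.leaf 20 0 60 108 0 0) (.sy (.leaf 18 0 64 91
  0 0) (.sl (.leaf 16 0 63 82 0 0) (.leaf 11 3 68 65 0 0)))) (.sy (.sy (.leaf 19 3 77 93 0 0)
  (.sl (.leaf 15 3 72 81 0 0) (.leaf 13 3 80 64 0 0))) (.sy (.sl (.leaf 22 3 94 87 0 0) (.leaf
  13 3 90 57 0 0)) (.sl (.sy (.leaf 15 3 87 67 0 0) (.leaf 15 3 92 63 0 0)) (.leaf 16 0 100 51 0
  0))))) (.sl (.sy (.sy (.sl (.sy (.leaf 11 3 63 70 0 0) (.leaf 13 3 73 70 0 0)) (.leaf 13 3 82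
  62 0 0)) (.sl (.sy (.leaf 17 3 86 75 0 0) (.sl (.leaf 9 3 70 53 0 0) (.leaf 9 3 79 47 0 0)))
  (.leaf 18 0 96 60 0 0))) (.sy (.sl (.sy (.sl (.leaf 9 3 76 49 0 0) (.leaf 9 3 85 44 0 0)) (.sl
  (.leaf 11 3 86 51 0 0) (.leaf 9 3 91 41 0 0))) (.leaf 16 0 103 50 0 0)) (.sl (.sy (.sl (.leaf
  14 0 91 48 0 0) (.leaf 12 0 97 38 0 0)) (.sl (.leaf 14 0 97 46 0 0) (.leaf 11 0 102 33 0 0)))
  (.leaf 14 0 111 40 0 0)))) (.sy (.sy (.sl (.sy (.leaf 15 3 97 60 0 0) (.leaf 18 0 101 57 0 0))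
  (.leaf 14 0 108 41 0 0)) (.sl (.leaf 25 0 118 70 0 0) (.leaf 12 0 117 32 0 0))) (.sy (.sl
  (.leaf 22 0 123 59 0 0) (.leaf 11 0 126 27 0 0)) (.sl (.sy (.leaf 14 0 122 36 0 0) (.leaf 14 0
  127 35 0 0)) (.leaf 11 0 136 25 0 0))))))) (.sl (.sy (.sl (.sy (.sl (.sy (.leaf 22 3 101 81 0
  0) (.leaf 22 3 109 75 0 0)) (.leaf 36 0 136 88 0 0)) (.sl (.sy (.leaf 20 0 111 59 0 0) (.leaf
  18 0 118 49 0 0)) (.leaf 22 0 137 53 0 0))) (.sy (.leaf 28 0 150 62 0 0) (.leaf 25 0 163 51 0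
  0))) (.sl (.sy (.sl (.sy (.leaf 16 0 125 41 0 0) (.leaf 14 0 133 33 0 0)) (.leaf 20 0 151 43 0
  0)) (.sl (.sy (.leaf 14 0 142 31 0 0) (.leaf 14 0 151 29 0 0)) (.sy (.leaf 12 0 160 23 0 0)
  (.leaf 12 0 168 22 0 0)))) (.sy (.sl (.leaf 16 0 168 30 0 0) (.leaf 12 0 181 21 0 0)) (.sl
  (.leaf 20 0 184 35 0 0) (.leaf 12 0 195 19 0 0))))) (.sy (.sl (.sy (.leaf 20 0 175 37 0 0)
  (.leaf 18 0 188 31 0 0)) (.sy (.leaf 18 0 204 28 0 0) (.leaf 16 0 216 24 0 0))) (.sl (.sy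
  (.leaf 18 0 201 29 0 0) (.sl (.leaf 14 0 208 21 0 0) (.leaf 11 0 221 15 0 0))) (.sy (.leaf 16
  0 228 22 0 0) (.leaf 18 0 239 24 0 0)))))) (.sl (.sl (.sl (.sy (.sl (.leaf 20 0 234 28 0 0)
  (.leaf 18 0 253 23 0 0)) (.sl (.sy (.leaf 12 0 249 15 0 0) (.leaf 12 0 260 14 0 0)) (.leaf 25
  0 273 30 0 0))) (.sy (.leaf 20 0 276 24 0 0) (.sy (.leaf 14 0 289 15 0 0) (.leaf 14 0 298 15 0
  0)))) (.sl (.sy (.leaf 18 0 302 19 0 0) (.sl (.leaf 16 0 314 16 0 0) (.leaf 12 0 327 11 0 0)))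
  (.sy (.leaf 16 0 328 16 0 0) (.leaf 20 0 344 19 0 0)))) (.sl (.sl (.sy (.leaf 18 0 359 16 0 0)
  (.sl (.leaf 14 0 365 12 0 0) (.leaf 14 0 381 12 0 0))) (.sy (.leaf 14 0 389 11 0 0) (.leaf 16
  0 402 13 0 0))) (.sl (.sy (.leaf 14 0 414 11 0 0) (.leaf 14 0 427 10 0 0)) (.sy (.leaf 14 0
  440 10 0 0) (.leaf 14 0 451 10 0 0))))))

theorem cS4 : chkS tS4 (.m 10737418240) (.p 0) (.m 171798691840) (.m 42949672960) 3 54 = true := by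
  decide +kernel

/-- A subdivision tree. -/
def tS8 : Tr :=
  (.sl (.sl (.sl (.sl (.sy (.sl (.sy (.leaf 18 0 117 49 0 0) (.leaf 16 0 121 42 0 0)) (.sy
  (.leaf 16 0 124 41 0 0) (.leaf 14 0 128 35 0 0))) (.sl (.leaf 18 0 130 45 0 0) (.leaf 16 0 137
  37 0 0))) (.sy (.sl (.leaf 20 0 140 46 0 0) (.leaf 12 0 144 26 0 0)) (.leaf 20 0 151 43 0 0)))
  (.sl (.sy (.sl (.leaf 16 0 155 33 0 0) (.leaf 11 0 162 21 0 0)) (.leaf 16 0 166 31 0 0)) (.sy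
  (.leaf 20 0 179 36 0 0) (.leaf 16 0 185 28 0 0)))) (.sl (.sl (.sl (.leaf 20 0 199 33 0 0)
  (.leaf 16 0 211 24 0 0)) (.sl (.leaf 16 0 226 23 0 0) (.leaf 11 0 236 14 0 0))) (.sl (.leaf 18
  0 251 23 0 0) (.leaf 16 0 273 19 0 0)))) (.sl (.sl (.sl (.leaf 20 0 300 22 0 0) (.leaf 14 0
  326 14 0 0)) (.sl (.leaf 12 0 349 11 0 0) (.leaf 12 0 372 10 0 0))) (.sl (.sl (.leaf 14 0 399
  11 0 0) (.leaf 11 0 427 8 0 0)) (.leaf 16 0 462 11 0 0))))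

theorem cS8 : chkS tS8 (.m 10737418240) (.p 0) (.p 34359738368) (.p 68719476736) 3 54 = true := by
  decide +kernel

end Vale.Agent.P139Z.Num
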