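import Vale.Agent.P139Z.Num.Tree
import Vale.Agent.P139Z.Num.C1
import Vale.Agent.P139Z.Num.C2
import Vale.Agent.P139Z.Num.C3
import Vale.Agent.P139Z.Num.C4
import Vale.Agent.P139Z.Num.C5
import Vale.Agent.P139Z.Num.C6
import Vale.Agent.P139Z.Num.C7
import Vale.Agent.P139Z.Num.C8

/-! The three numerical claims. -/

open Complex
open scoped ComplexConjugate

namespace Vale.Agent.P139Z.Num

theorem claimS_big {l : ℕ} (h3 : 3 ≤ l) (h54 : l ≤ 54) {ν ω Z : ℝ} (hν0 : -10737418240 ≤ ν)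
    (hν1 : ν ≤ 0) (hω0 : -(403 * 4294967296) ≤ ω) (hω1 : ω ≤ 403 * 4294967296)
    (hZ0 : 11617027542 ≤ Z) (hZ1 : Z ≤ 11619604523) {y q : ℕ → ℂ}
    (h : Ch ν ω ((l + 5) * 2147483648) Z y q) :
    (conj (y 0) * q 0).re < (l + 5) * 2147483648 * ‖y 0‖ ^ 2 ∨ (y 0 = 0 ∧ q 0 = 0) := by
  have k := ((((((chkS_sound cS1).sy (chkS_sound cS2)).sy (chkS_sound cS3)).sy (chkS_sound cS4)).sy
    (chkS_sound cS5)).sy (chkS_sound cS6)).sy (chkS_sound cS7)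
  have k' := (((((k.sy (chkS_sound cS8)).sy (chkS_sound cS9)).sy (chkS_sound cS10)).sy
    (chkS_sound cS11)).sy (chkS_sound cS12)).sy (chkS_sound cS13)
  refine k' l ν ω Z y q h3 h54 ?_ ?_ ?_ ?_ hZ0 hZ1 h <;>
    simp only [val_p, val_m, Nat.cast_ofNat, Nat.cast_zero] <;> linarith

theorem claimS_small {l : ℕ} (h2 : l ≤ 2) {ν ω Z : ℝ} (hν0 : -10737418240 ≤ ν) (hν1 : ν ≤ 0)
    (hω : (4294967296 ≤ ω ∧ ω ≤ 403 * 4294967296) ∨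
      (-(403 * 4294967296) ≤ ω ∧ ω ≤ -(4 * 4294967296)))
    (hZ0 : 11617027542 ≤ Z) (hZ1 : Z ≤ 11619604523) {y q : ℕ → ℂ}
    (h : Ch ν ω ((l + 5) * 2147483648) Z y q) :
    (conj (y 0) * q 0).re < (l + 5) * 2147483648 * ‖y 0‖ ^ 2 ∨ (y 0 = 0 ∧ q 0 = 0) := by
  rcases hω with ⟨h0, h1⟩ | ⟨h0, h1⟩
  · refine chkS_sound cS14 l ν ω Z y q (Nat.zero_le _) h2 ?_ ?_ ?_ ?_ hZ0 hZ1 h <;>
      simp only [val_p, val_m, Nat.cast_ofNat, Nat.cast_zero] <;> linarith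
  · refine chkS_sound cS15 l ν ω Z y q (Nat.zero_le _) h2 ?_ ?_ ?_ ?_ hZ0 hZ1 h <;>
      simp only [val_p, val_m, Nat.cast_ofNat, Nat.cast_zero] <;> linarith

theorem claimJ {l : ℕ} (h2 : l ≤ 2) {x w s Z : ℝ} (hx0 : 0 ≤ x) (hx1 : x ≤ 10737418240)
    (hw0 : 0 ≤ w) (hw1 : w ≤ 3 * 4294967296) (hs0 : 7246168173 ≤ s) (hs1 : s ≤ 7247886162)
    (hZ0 : 11617027542 ≤ Z) (hZ1 : Z ≤ 11619604523) {y q y' q' : ℕ → ℂ}
    (h : Ch (x - 10737418240) (w - s) ((l + 5) * 2147483648) Z y q)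
    (h' : Ch (x - 10737418240) (-w - s) ((l + 5) * 2147483648) Z y' q')
    (hy : y' 0 = -conj (y 0))
    (hq : q' 0 = conj (q 0) - 2 * (((l + 5) * 2147483648 : ℝ) : ℂ) * conj (y 0))
    (hl0 : l = 0 → 536870912 ^ 2 ≤ x ^ 2 + w ^ 2 ∧ 536870912 ^ 2 ≤ (x - 4294967296) ^ 2 + w ^ 2)
    (hl1 : l = 1 → 536870912 ^ 2 ≤ (x - 2147483648) ^ 2 + w ^ 2) : y 0 = 0 ∧ q 0 = 0 := by
  have k : ClJ l 0 10737418240 0 12884901888 := by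
    interval_cases l
    · exact chkJ_sound cJ1
    · exact (((((((chkJ_sound cJ3).sx (chkJ_sound cJ4)).sx (chkJ_sound cJ5)).sx
        (chkJ_sound cJ6)).sx (chkJ_sound cJ7)).sy (chkJ_sound cJ8)).sy (chkJ_sound cJ9)).sy
        (chkJ_sound cJ10)
    · exact chkJ_sound cJ2
  refine k x w s Z y q y' q' ?_ ?_ ?_ ?_ hs0 hs1 hZ0 hZ1 h h' hy hq hl0 hl1 <;>
    simp only [Nat.cast_ofNat, Nat.cast_zero] <;> linarith

end Vale.Agent.P139Z.Num
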