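import Vale.Agent.P139Z.Num.Chk
import Mathlib.Analysis.Complex.Basic
import Mathlib.Tactic

/-! Specifications of the integer primitives of the checker. -/

open Complex

namespace Vale.Agent.P139Z.Num

/-- The real value of an integer. -/
def SI.val : SI → ℝ
  | .p n => n
  | .m n => -n

/-- The complex number with the given integer parts. -/
def cx (a b : SI) : ℂ := ⟨a.val, b.val⟩

theorem cx_re (a b : SI) : (cx a b).re = a.val := rfl
theorem cx_im (a b : SI) : (cx a b).im = b.val := rfl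

theorem fN_eq {α : Type} (n : ℕ) (k : ℕ → α) : fN n k = k n := by cases n <;> rfl

theorem fI_eq {α : Type} (x : SI) (k : SI → α) : fI x k = k x := by
  rcases x with n | n <;> cases n <;> rfl

theorem ite'_some {α : Type} {b : Bool} {x : Option α} {t : α} (h : ite' b x none = some t) :
    b = true ∧ x = some t := by
  cases b
  · exact absurd h (by simp [ite'])
  · exact ⟨rfl, h⟩

theorem an_eq {a b : Bool} : an a b = true ↔ a = true ∧ b = true := by
  cases a <;> simp [an]

theorem orr_eq {a b : Bool} : orr a b = true ↔ a = true ∨ b = true := by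
  cases a <;> simp [orr]

theorem lt_eq {a b : ℕ} : lt a b = true ↔ a < b := by
  simp [lt, Nat.ble_eq]

theorem mx_eq (a b : ℕ) : mx a b = max a b := by
  unfold mx
  cases h : Nat.ble b a
  · have : ¬ b ≤ a := fun h' => by simp [Nat.ble_eq_true_of_le h'] at h
    exact (max_eq_right (le_of_not_ge this)).symm
  · exact (max_eq_left (Nat.le_of_ble_eq_true h)).symm

theorem c_mul (a b : ℕ) : ((Nat.mul a b : ℕ) : ℝ) = a * b := Nat.cast_mul a b
theorem c_add (a b : ℕ) : ((Nat.add a b : ℕ) : ℝ) = a + b := Nat.cast_add a b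
theorem c_succ (a : ℕ) : ((Nat.succ a : ℕ) : ℝ) = a + 1 := Nat.cast_succ a

theorem val_p (n : ℕ) : (SI.p n).val = n := rfl
theorem val_m (n : ℕ) : (SI.m n).val = -n := rfl

theorem val_dif (x y : ℕ) : (dif x y).val = x - y := by
  unfold dif
  cases h : Nat.ble y x
  · have : ¬ y ≤ x := fun h' => by simp [Nat.ble_eq_true_of_le h'] at h
    change -((y - x : ℕ) : ℝ) = _
    rw [Nat.cast_sub (by omega)]; ring
  · change ((x - y : ℕ) : ℝ) = _
    rw [Nat.cast_sub (Nat.le_of_ble_eq_true h)]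

theorem val_mul (a b : SI) : (mul a b).val = a.val * b.val := by
  rcases a with a | a <;> rcases b with b | b <;> simp [mul, SI.val]

theorem val_mn (a : SI) (b : ℕ) : (mn a b).val = a.val * b := by
  rcases a with a | a <;> simp [mn, SI.val]

theorem val_add (a b : SI) : (add a b).val = a.val + b.val := by
  rcases a with a | a <;> rcases b with b | b
  · simp [add, SI.val]
  · exact (val_dif a b).trans (by simp [SI.val, sub_eq_add_neg])
  · exact (val_dif b a).trans (by simp only [SI.val]; ring)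
  · simp only [add, SI.val, c_add]; ring

theorem val_sub (a b : SI) : (sub a b).val = a.val - b.val := by
  rcases a with a | a <;> rcases b with b | b
  · exact val_dif a b
  · simp [sub, SI.val]
  · simp only [sub, SI.val, c_add]; ring
  · exact (val_dif b a).trans (by simp only [SI.val]; ring)

theorem val_neg (a : SI) : (neg a).val = -a.val := by
  rcases a with a | a <;> simp [neg, SI.val]

theorem c_ab (a : SI) : (ab a : ℝ) = |a.val| := by
  rcases a with a | a <;> simp [ab, SI.val]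

theorem pp_sub_pm (a : SI) : (pp a : ℝ) - pm a = a.val := by
  rcases a with a | a <;> simp [pp, pm, SI.val]

theorem le_pp (a : SI) : a.val ≤ pp a := by
  rcases a with a | a <;> simp [pp, SI.val]

theorem pos_val {a : SI} (h : pos a = true) : 0 < a.val := by
  rcases a with a | a
  · have : 0 < a := lt_eq.1 h
    exact Nat.cast_pos.2 this
  · exact absurd (lt_eq.1 h) (lt_irrefl 0)

theorem cx_neg (a b : SI) : cx (neg a) (neg b) = -cx a b := by
  apply Complex.ext <;> simp [cx, val_neg]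

theorem c_ss (a b : ℕ) : (ss a b : ℝ) = (a : ℝ) ^ 2 + (b : ℝ) ^ 2 := by
  simp only [ss, c_add, c_mul]; ring

theorem cheap_spec (a b : ℕ) : ss a b ≤ cheap a b ^ 2 ∧ 0 < cheap a b := by
  refine ⟨?_, Nat.succ_pos _⟩
  unfold cheap ss
  cases h : Nat.ble b a
  · have : ¬ b ≤ a := fun h' => by simp [Nat.ble_eq_true_of_le h'] at h
    change a * a + b * b ≤ (b + a / 2 + 1) ^ 2
    have h1 : a ≤ 2 * (a / 2) + 1 := by omega
    have h2 : a ≤ b := by omega
    nlinarith [Nat.mul_le_mul h1 h2]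
  · have h2 := Nat.le_of_ble_eq_true h
    change a * a + b * b ≤ (a + b / 2 + 1) ^ 2
    have h1 : b ≤ 2 * (b / 2) + 1 := by omega
    nlinarith [Nat.mul_le_mul h1 h2]

theorem newt_spec (n : ℕ) {m : ℕ} (hm : 0 < m) : n ≤ newt n m ^ 2 := by
  change n ≤ ((m + n / m) / 2 + 1) ^ 2
  have h1 : n < m * (n / m + 1) := Nat.lt_mul_div_succ n hm
  generalize n / m = k at h1 ⊢
  have h2 : m + k + 1 ≤ 2 * ((m + k) / 2 + 1) := by omega
  generalize (m + k) / 2 + 1 = t at h2 ⊢
  have h3 : ((m : ℤ) + k + 1) ^ 2 ≤ (2 * t) ^ 2 :=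
    pow_le_pow_left₀ (by positivity) (by exact_mod_cast h2) 2
  have h4 : (n : ℤ) < m * (k + 1) := by exact_mod_cast h1
  have h5 : (n : ℤ) ≤ t ^ 2 := by nlinarith [sq_nonneg ((m : ℤ) - k - 1)]
  exact_mod_cast h5

theorem up_spec (a b : ℕ) : ss a b ≤ up a b ^ 2 := newt_spec _ (cheap_spec a b).2

theorem lo_spec (a b : ℕ) : lo a b ^ 2 ≤ ss a b := by
  have h1 : lo a b * up a b ≤ ss a b := Nat.div_mul_le_self _ _
  have h2 := up_spec a b
  have h3 : 0 < up a b := Nat.succ_pos _
  have h4 : lo a b ^ 2 * up a b ^ 2 ≤ ss a b * up a b ^ 2 := by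
    calc lo a b ^ 2 * up a b ^ 2 = (lo a b * up a b) * (lo a b * up a b) := by ring
      _ ≤ ss a b * ss a b := Nat.mul_le_mul h1 h1
      _ ≤ _ := Nat.mul_le_mul le_rfl h2
  exact Nat.le_of_mul_le_mul_right h4 (by positivity)

theorem norm_sq_ss {z : ℂ} {a b : ℕ} (ha : |z.re| = a) (hb : |z.im| = b) :
    ‖z‖ ^ 2 = (ss a b : ℝ) := by
  rw [c_ss, ← ha, ← hb, sq_abs, sq_abs, Complex.sq_norm, normSq_apply]; ring

theorem norm_le_of_ss {z : ℂ} {a b u : ℕ} (ha : |z.re| = a) (hb : |z.im| = b)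
    (h : ss a b ≤ u ^ 2) : ‖z‖ ≤ u := by
  refine (pow_le_pow_iff_left₀ (norm_nonneg _) (Nat.cast_nonneg _) two_ne_zero).1 ?_
  rw [norm_sq_ss ha hb]
  exact_mod_cast h

theorem norm_le_up {z : ℂ} {a b : ℕ} (ha : |z.re| = a) (hb : |z.im| = b) : ‖z‖ ≤ up a b :=
  norm_le_of_ss ha hb (up_spec a b)

theorem norm_le_cheap {z : ℂ} {a b : ℕ} (ha : |z.re| = a) (hb : |z.im| = b) : ‖z‖ ≤ cheap a b :=
  norm_le_of_ss ha hb (cheap_spec a b).1

theorem lo_le_norm {z : ℂ} {a b : ℕ} (ha : |z.re| = a) (hb : |z.im| = b) :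
    (lo a b : ℝ) ≤ ‖z‖ := by
  refine (pow_le_pow_iff_left₀ (Nat.cast_nonneg _) (norm_nonneg _) two_ne_zero).1 ?_
  rw [norm_sq_ss ha hb]
  exact_mod_cast lo_spec a b

theorem norm_le_upd (a b c d : SI) : ‖cx a b - cx c d‖ ≤ upd a b c d := by
  simp only [upd, fN_eq]
  exact norm_le_up (by simp [c_ab, val_sub, cx]) (by simp [c_ab, val_sub, cx])

theorem lod_le_norm (a b c d : SI) : (lod a b c d : ℝ) ≤ ‖cx a b - cx c d‖ := by
  simp only [lod, fN_eq]
  exact lo_le_norm (by simp [c_ab, val_sub, cx]) (by simp [c_ab, val_sub, cx])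

theorem c_sub_le {a b : ℕ} {x : ℝ} (h : (a : ℝ) - b ≤ x) (hx : 0 ≤ x) :
    ((Nat.sub a b : ℕ) : ℝ) ≤ x := by
  change ((a - b : ℕ) : ℝ) ≤ x
  rcases le_total b a with h1 | h1
  · rwa [Nat.cast_sub h1]
  · rw [Nat.sub_eq_zero_of_le h1]; simpa using hx

theorem c_sub_pos {a b : ℕ} (h : 0 < Nat.sub a b) : ((Nat.sub a b : ℕ) : ℝ) = a - b := by
  change 0 < a - b at h
  exact Nat.cast_sub (by omega)

theorem le_div_succ (n : ℕ) {d : ℕ} (h : 0 < d) : (n : ℝ) ≤ (Nat.succ (Nat.div n d) : ℕ) * d := by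
  have : n < d * (n / d + 1) := Nat.lt_mul_div_succ n h
  have h2 : n ≤ Nat.succ (Nat.div n d) * d := by rw [mul_comm]; exact this.le
  exact_mod_cast h2

end Vale.Agent.P139Z.Num
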