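import Mathlib.Analysis.Complex.Basic
import Mathlib.Tactic

/-! The scaled level recursion. -/

open Complex
open scoped ComplexConjugate

namespace Vale.Agent.P139Z.Num

/-- The level recursion in symmetric form at the scale `2^32`, with the sign conditions from
level four on. -/
structure Ch (ν ω b Z : ℝ) (y q : ℕ → ℂ) : Prop where
  ry : ∀ j : ℕ, 4294967296 * y (j + 1) = q j + (ν + j * 4294967296 + I * ω) * y j
  rq : ∀ j : ℕ, 4294967296 * q (j + 1) = (ν + j * 4294967296 + I * ω) * q j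
    + (((b ^ 2 + Z ^ 2 / 4 : ℝ) : ℂ) - I * Z * (ν + j * 4294967296 + I * ω)) * y j
  re : ∀ j : ℕ, 4 ≤ j → (conj (y j) * q j).re ≤ 0
  im : ∀ j : ℕ, 4 ≤ j → 0 ≤ (conj (y j) * q j).im

end Vale.Agent.P139Z.Num
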