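/-!
An integer checker for enclosures of the ratios of the level recursion by discs of the Riemann
sphere.  All real quantities carry the scale `2^32` to the power of their degree.
-/

namespace Vale.Agent.P139Z.Num

/-- Integers in sign and magnitude form. -/
inductive SI where
  | p (n : Nat) : SI
  | m (n : Nat) : SI

noncomputable section

/-- Evaluate a natural number before passing it on. -/
def fN {α : Type} (n : Nat) (k : Nat → α) : α := Nat.rec (k 0) (fun m _ => k (Nat.succ m)) n

/-- Evaluate an integer before passing it on. -/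
def fI {α : Type} (x : SI) (k : SI → α) : α :=
  SI.rec (fun n => Nat.rec (k (SI.p 0)) (fun m _ => k (SI.p (Nat.succ m))) n)
    (fun n => Nat.rec (k (SI.m 0)) (fun m _ => k (SI.m (Nat.succ m))) n) x

/-- Case distinction. -/
def ite' {α : Type} (b : Bool) (x y : α) : α := Bool.rec y x b

/-- Conjunction. -/
def an (a b : Bool) : Bool := Bool.rec false b a

/-- Disjunction. -/
def orr (a b : Bool) : Bool := Bool.rec b true a

/-- Strict comparison. -/
def lt (a b : Nat) : Bool := Nat.ble (Nat.succ a) b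

/-- Maximum. -/
def mx (a b : Nat) : Nat := Bool.rec b a (Nat.ble b a)

/-- Product. -/
def mul (a b : SI) : SI :=
  SI.rec (fun x => SI.rec (fun y => SI.p (Nat.mul x y)) (fun y => SI.m (Nat.mul x y)) b)
    (fun x => SI.rec (fun y => SI.m (Nat.mul x y)) (fun y => SI.p (Nat.mul x y)) b) a

/-- Product with a natural number. -/
def mn (a : SI) (y : Nat) : SI :=
  SI.rec (fun x => SI.p (Nat.mul x y)) (fun x => SI.m (Nat.mul x y)) a

/-- Difference of natural numbers. -/
def dif (x y : Nat) : SI := Bool.rec (SI.m (Nat.sub y x)) (SI.p (Nat.sub x y)) (Nat.ble y x)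

/-- Sum. -/
def add (a b : SI) : SI :=
  SI.rec (fun x => SI.rec (fun y => SI.p (Nat.add x y)) (fun y => dif x y) b)
    (fun x => SI.rec (fun y => dif y x) (fun y => SI.m (Nat.add x y)) b) a

/-- Difference. -/
def sub (a b : SI) : SI :=
  SI.rec (fun x => SI.rec (fun y => dif x y) (fun y => SI.p (Nat.add x y)) b)
    (fun x => SI.rec (fun y => SI.m (Nat.add x y)) (fun y => dif y x) b) a

/-- Negation. -/
def neg (a : SI) : SI := SI.rec (fun x => SI.m x) (fun x => SI.p x) a

/-- Quotient, rounded towards zero. -/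
def dv (a : SI) (n : Nat) : SI :=
  SI.rec (fun x => SI.p (Nat.div x n)) (fun x => SI.m (Nat.div x n)) a

/-- Absolute value. -/
def ab (a : SI) : Nat := SI.rec (fun x => x) (fun x => x) a

/-- Positive part. -/
def pp (a : SI) : Nat := SI.rec (fun x => x) (fun _ => 0) a

/-- Negative part. -/
def pm (a : SI) : Nat := SI.rec (fun _ => 0) (fun x => x) a

/-- Sum of squares. -/
def ss (a b : Nat) : Nat := Nat.add (Nat.mul a a) (Nat.mul b b)

/-- A cheap upper bound for the modulus. -/
def cheap (a b : Nat) : Nat :=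
  Nat.succ (Bool.rec (Nat.add b (Nat.div a 2)) (Nat.add a (Nat.div b 2)) (Nat.ble b a))

/-- One Newton step for the square root, rounded upwards. -/
def newt (n m : Nat) : Nat := Nat.succ (Nat.div (Nat.add m (Nat.div n m)) 2)

/-- A sharp upper bound for the modulus. -/
def up (a b : Nat) : Nat := newt (ss a b) (cheap a b)

/-- A sharp lower bound for the modulus. -/
def lo (a b : Nat) : Nat := Nat.div (ss a b) (up a b)

/-- The parameters of a box: centre and radii. -/
structure Par where
  mi : SI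
  en : Nat
  ew : Nat
  em : Nat
  c : Nat
  ec : Nat
  Z : Nat
  eZ : Nat

/-- A disc `|z - a| ≤ r |z - p|`. -/
structure St where
  ar : SI
  ai : SI
  pr : SI
  pi : SI
  r : Nat

/-- Rounded backward image of a point at the centre of the box. -/
def back {α : Type} (mr mi sr si zr zi : SI) (k : SI → SI → α) : α :=
  fI (sub (sub (mul mr zr) (mul mi zi)) sr) fun nr =>
  fI (sub (add (mul mr zi) (mul mi zr)) si) fun ni =>
  fI (sub mr zr) fun dr => fI (sub mi zi) fun di => fN (Nat.succ (ss (ab dr) (ab di))) fun n =>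
  fI (dv (add (mul nr dr) (mul ni di)) n) fun xr =>
  fI (dv (sub (mul ni dr) (mul nr di)) n) fun xi => k xr xi

/-- The absolute values of the real and imaginary parts of the entry `μ(v - u) + uv - S` at the
centre, and its possible deviation. -/
def ent {α : Type} (mr mi sr si : SI) (Z em E : Nat) (ur ui vr vi : SI)
    (k : Nat → Nat → Nat → α) : α :=
  fI (sub vr ur) fun x => fI (sub vi ui) fun y =>
  fN (ab (sub (add (sub (mul mr x) (mul mi y)) (sub (mul ur vr) (mul ui vi))) sr)) fun er =>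
  fN (ab (sub (add (add (mul mr y) (mul mi x)) (add (mul ur vi) (mul ui vr))) si)) fun ei =>
  fN (Nat.add (Nat.mul em (cheap (ab x) (ab (add y (SI.p Z))))) E) fun e => k er ei e

/-- A quarter of the difference of the squared moduli of the diagonal entries at the centre, and
its possible deviation. -/
def dlow {α : Type} (P : Par) (mr : SI) (mm : Nat) (zr zi zr1 zi1 : SI) (k : SI → Nat → α) : α :=
  fI (add zr zr1) fun Sr => fI (add zi zi1) fun Si =>
  fN (ss (ab zr) (ab zi)) fun n0 => fN (ss (ab zr1) (ab zi1)) fun n1 =>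
  fI (add (add (mn Sr P.c) (mn zr1 n0)) (mn zr n1)) fun Wr =>
  fI (sub (sub (mn Si P.c) (mn zi1 n0)) (mn zi n1)) fun Wi =>
  fI (mn Si P.Z) fun ZS =>
  fI (sub (sub (mul mr Wr) (mul P.mi Wi)) (mn ZS (ss (ab mr) (ab P.mi)))) fun D =>
  fN (Nat.add (Nat.add (Nat.add (Nat.mul (ab (sub Wr (mn (mul ZS mr) 2))) P.en)
      (Nat.mul (ab (add Wi (mn (mul ZS P.mi) 2))) P.ew))
      (Nat.mul (Nat.add (ab (sub (mul mr Sr) (mul P.mi Si)))
        (Nat.add (Nat.mul P.en (ab Sr)) (Nat.mul P.ew (ab Si)))) P.ec))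
      (Nat.add (Nat.mul (pp ZS) (Nat.mul P.em P.em))
        (Nat.mul (Nat.mul P.eZ (ab Si)) (Nat.mul mm mm)))) fun e => k D e

/-- Candidate for the ratio of the diagonal entries. -/
def rho (A B du dl : Nat) : Nat :=
  Bool.rec
    (Nat.succ (Nat.add 4294967296
      (Nat.div (Nat.mul 4294967296 (Nat.sub B A)) (Nat.mul 2 (Nat.mul dl dl)))))
    (fN (Nat.sub 18446744073709551616
      (Nat.div (Nat.mul 18446744073709551616 (Nat.sub A B)) (Nat.mul du du))) fun x =>
      newt x (newt x (newt x 4294967296)))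
    (Nat.ble B A)

/-- The inequality `(N² - t²) d² ≤ N² (A - B)`. -/
def okr (t A B d : Nat) : Bool :=
  Nat.ble (Nat.mul 18446744073709551616 (Nat.add (Nat.mul d d) B))
    (Nat.add (Nat.mul (Nat.mul t t) (Nat.mul d d)) (Nat.mul 18446744073709551616 A))

/-- One backward step with symmetric reference points; only `s.ar`, `s.ai`, `s.r` are read. -/
def stepS (P : Par) (mr : SI) (s : St) : Option St :=
  fI (add (SI.p P.c) (mn P.mi P.Z)) fun sr => fI (neg (mn mr P.Z)) fun si =>
  back mr P.mi sr si s.ar s.ai fun ar ai =>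
  fN (Nat.add (Nat.add (ab mr) (ab P.mi)) P.em) fun mm =>
  fN (Nat.add P.ec (Nat.mul P.eZ mm)) fun E =>
  ent mr P.mi sr si P.Z P.em E (neg ar) (neg ai) s.ar s.ai fun dr di de =>
  ent mr P.mi sr si P.Z P.em E ar ai s.ar s.ai fun br bi be =>
  ent mr P.mi sr si P.Z P.em E (neg ar) (neg ai) (neg s.ar) (neg s.ai) fun gr gi ge =>
  fN (up dr di) fun du0 => fN (Nat.sub (Nat.div (ss dr di) du0) de) fun dl =>
  fN (Nat.add du0 de) fun du =>
  fN (Nat.sub (Nat.mul dl 4294967296) (Nat.mul (Nat.add (cheap gr gi) ge) s.r)) fun den =>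
  dlow P mr mm (neg ar) (neg ai) (neg s.ar) (neg s.ai) fun D e =>
  fN (Nat.mul 4 (pp D)) fun A => fN (Nat.mul 4 (Nat.add (pm D) e)) fun B =>
  fN (rho A B du dl) fun t =>
  ite' (an (an (lt 0 den) (lt 0 (Nat.add (ab ar) (ab ai)))) (an (okr t A B du) (okr t A B dl)))
    (fN (Nat.succ (Nat.div (Nat.add (Nat.mul (Nat.mul t s.r) dl)
      (Nat.mul (Nat.add (cheap br bi) be) 18446744073709551616)) den)) fun r =>
      some ⟨ar, ai, neg ar, neg ai, r⟩)
    none

/-- One backward step with general reference points. -/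
def stepG (P : Par) (mr : SI) (s : St) : Option St :=
  fI (add (SI.p P.c) (mn P.mi P.Z)) fun sr => fI (neg (mn mr P.Z)) fun si =>
  back mr P.mi sr si s.ar s.ai fun ar ai => back mr P.mi sr si s.pr s.pi fun pr pi =>
  fN (Nat.add (Nat.add (ab mr) (ab P.mi)) P.em) fun mm =>
  fN (Nat.add P.ec (Nat.mul P.eZ mm)) fun E =>
  ent mr P.mi sr si P.Z P.em E ar ai s.pr s.pi fun xr xi xe =>
  ent mr P.mi sr si P.Z P.em E ar ai s.ar s.ai fun br bi be =>
  ent mr P.mi sr si P.Z P.em E pr pi s.pr s.pi fun gr gi ge =>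
  ent mr P.mi sr si P.Z P.em E pr pi s.ar s.ai fun dr di de =>
  fN (Nat.sub (lo dr di) de) fun dl =>
  fN (Nat.sub (Nat.mul dl 4294967296) (Nat.mul (Nat.add (cheap gr gi) ge) s.r)) fun den =>
  ite' (an (lt 0 den) (lt 0 (Nat.add (ab (sub pr ar)) (ab (sub pi ai)))))
    (fN (Nat.succ (Nat.div (Nat.mul (Nat.add (Nat.mul (Nat.add (up xr xi) xe) s.r)
      (Nat.mul (Nat.add (cheap br bi) be) 4294967296)) 4294967296) den)) fun r =>
      some ⟨ar, ai, pr, pi, r⟩)
    none

/-- Backward steps with symmetric reference points from level `J + n` to level `J`. -/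
def runS (P : Par) (mr : SI) (J n : Nat) : St → Option St :=
  Nat.rec (fun s => some s) (fun j ih s =>
    Option.rec none ih (fI (add mr (SI.p (Nat.mul (Nat.add J j) 4294967296))) fun m =>
      stepS P m s)) n

/-- Backward steps with general reference points from level `n` to level `0`. -/
def runG (P : Par) (mr : SI) (n : Nat) : St → Option St :=
  Nat.rec (fun s => some s) (fun j ih s =>
    Option.rec none ih (fI (add mr (SI.p (Nat.mul j 4294967296))) fun m => stepG P m s)) n

/-- The starting disc, from a hint. -/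
def init (hr hi : Nat) : St :=
  ⟨SI.m (Nat.mul hr 268435456), SI.p (Nat.mul hi 268435456), SI.p (Nat.mul hr 268435456),
    SI.m (Nat.mul hi 268435456), 4294967296⟩

/-- Centre and radii of a box. -/
def mkPar {α : Type} (nlo nhi wlo whi : SI) (blo bhi Zlo Zhi : Nat) (k : SI → Par → α) : α :=
  fI (dv (add nlo nhi) 2) fun mr => fN (mx (ab (sub nhi mr)) (ab (sub mr nlo))) fun en =>
  fI (dv (add wlo whi) 2) fun mi => fN (mx (ab (sub whi mi)) (ab (sub mi wlo))) fun ew =>
  fN (up en ew) fun em =>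
  fN (Nat.succ (Nat.add (Nat.mul bhi bhi) (Nat.div (Nat.mul Zhi Zhi) 4))) fun chi =>
  fN (Nat.div (Nat.add (Nat.add (Nat.mul blo blo) (Nat.div (Nat.mul Zlo Zlo) 4)) chi) 2) fun c =>
  fN (Nat.sub chi c) fun ec => fN (Nat.div (Nat.add Zlo Zhi) 2) fun Z =>
  fN (Nat.sub Zhi Z) fun eZ => k mr ⟨mi, en, ew, em, c, ec, Z, eZ⟩

/-- The enclosure at level zero for a box, started at level `J + n`. -/
def chain (nlo nhi wlo whi : SI) (blo bhi Zlo Zhi n J hr hi : Nat) : Option St :=
  mkPar nlo nhi wlo whi blo bhi Zlo Zhi fun mr P =>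
    ite' (an (Nat.ble 4 (Nat.add J n)) (lt 0 (Nat.add hr hi)))
      (Option.rec none (runG P mr J) (runS P mr J n (init hr hi))) none

/-- Upper bound for the modulus of a difference. -/
def upd (a b c d : SI) : Nat := fN (ab (sub a c)) fun x => fN (ab (sub b d)) fun y => up x y

/-- Lower bound for the modulus of a difference. -/
def lod (a b c d : SI) : Nat := fN (ab (sub a c)) fun x => fN (ab (sub b d)) fun y => lo x y

/-- Strict positivity. -/
def pos (a : SI) : Bool := lt 0 (pp a)

/-- The disc lies in the half-plane of real part less than `b`. -/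
def finalS (s : St) (b : Nat) : Bool :=
  an (lt s.r 4294967296)
    (pos (sub (add (SI.p (Nat.mul b 18446744073709551616)) (mn s.pr (Nat.mul s.r s.r)))
      (add (mn s.ar 18446744073709551616) (SI.p (Nat.add (Nat.mul b (Nat.mul s.r s.r))
        (Nat.mul (Nat.mul s.r 4294967296) (upd s.pr s.pi s.ar s.ai)))))))

/-- The disc `s` and the reflected disc `t` are disjoint. -/
def finalJ (s t : St) (b2 : Nat) : Bool :=
  fI (sub (SI.p b2) t.ar) fun Ar => fI (sub (SI.p b2) t.pr) fun Br =>
    lt (Nat.add (Nat.mul t.r (Nat.add (Nat.mul (upd Br t.pi s.ar s.ai) 4294967296)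
        (Nat.mul s.r (upd s.pr s.pi Br t.pi))))
        (Nat.mul (Nat.mul s.r (upd s.pr s.pi Ar t.ai)) 4294967296))
      (Nat.mul (lod Ar t.ai s.ar s.ai) 18446744073709551616)

/-- `(l + 5)/2` at the scale. -/
def bb (l : Nat) : Nat := Nat.mul (Nat.add l 5) 2147483648

end

/-- Subdivision trees. -/
inductive Tr where
  | leaf (n J a b c d : Nat) : Tr
  | skip : Tr
  | sx (s t : Tr) : Tr
  | sy (s t : Tr) : Tr
  | sl (s t : Tr) : Tr

noncomputable section

/-- Checker for the half-plane claim. -/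
def chkS (T : Tr) : SI → SI → SI → SI → Nat → Nat → Bool :=
  Tr.rec
    (fun n J a b _ _ n0 n1 w0 w1 l0 l1 => Option.rec false (fun s => finalS s (bb l0))
      (chain n0 n1 w0 w1 (bb l0) (bb l1) 11617027542 11619604523 n J a b))
    (fun _ _ _ _ _ _ => false)
    (fun _ _ s t n0 n1 w0 w1 l0 l1 => fI (dv (add n0 n1) 2) fun m =>
      an (s n0 m w0 w1 l0 l1) (t m n1 w0 w1 l0 l1))
    (fun _ _ s t n0 n1 w0 w1 l0 l1 => fI (dv (add w0 w1) 2) fun m =>
      an (s n0 n1 w0 m l0 l1) (t n0 n1 m w1 l0 l1))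
    (fun _ _ s t n0 n1 w0 w1 l0 l1 => fN (Nat.div (Nat.add l0 l1) 2) fun m =>
      an (s n0 n1 w0 w1 l0 m) (t n0 n1 w0 w1 (Nat.succ m) l1)) T

/-- The box lies in the open disc of radius `1/8` about the real point `c`. -/
def inDisc (c x0 x1 y1 : Nat) : Bool :=
  lt (Nat.mul 64 (ss (mx (ab (dif x0 c)) (ab (dif x1 c))) y1)) 18446744073709551616

/-- Checker for the joint claim. -/
def chkJ (l : Nat) (T : Tr) : Nat → Nat → Nat → Nat → Bool :=
  Tr.rec
    (fun n J a b c d x0 x1 y0 y1 => Option.rec false (fun s => Option.rec false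
      (fun t => finalJ s t (Nat.mul 2 (bb l)))
      (chain (dif x0 10737418240) (dif x1 10737418240) (SI.m (Nat.add y1 7247886162))
        (SI.m (Nat.add y0 7246168173)) (bb l) (bb l) 11617027542 11619604523 n J c d))
      (chain (dif x0 10737418240) (dif x1 10737418240) (dif y0 7247886162) (dif y1 7246168173)
        (bb l) (bb l) 11617027542 11619604523 n J a b))
    (fun x0 x1 _ y1 => orr (an (Nat.beq l 0) (orr (inDisc 0 x0 x1 y1) (inDisc 4294967296 x0 x1 y1)))
      (an (Nat.beq l 1) (inDisc 2147483648 x0 x1 y1)))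
    (fun _ _ s t x0 x1 y0 y1 => fN (Nat.div (Nat.add x0 x1) 2) fun m =>
      an (s x0 m y0 y1) (t m x1 y0 y1))
    (fun _ _ s t x0 x1 y0 y1 => fN (Nat.div (Nat.add y0 y1) 2) fun m =>
      an (s x0 x1 y0 m) (t x0 x1 m y1))
    (fun _ _ _ _ _ _ _ _ => false) T

end

end Vale.Agent.P139Z.Num
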