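import Mathlib.Analysis.Complex.Basic
import Mathlib.Tactic

/-! Discs of the Riemann sphere under the backward map of the level recursion. -/

open Complex
open scoped ComplexConjugate

namespace Vale.Agent.P139Z.Num

theorem step_abs {y q μ S a p a' p' : ℂ} {r' r ρ bu gu dl : ℝ} (hne : p' ≠ a')
    (h : ‖(μ * q + S * y) - a' * (q + μ * y)‖ ≤ r' * ‖(μ * q + S * y) - p' * (q + μ * y)‖)
    (hr' : 0 ≤ r') (hρ : 0 ≤ ρ)
    (hα : ‖μ * (p' - a) + a * p' - S‖ ≤ ρ * ‖μ * (a' - p) + p * a' - S‖)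
    (hβ : ‖μ * (a' - a) + a * a' - S‖ ≤ bu) (hγ : ‖μ * (p' - p) + p * p' - S‖ ≤ gu)
    (hδ : dl ≤ ‖μ * (a' - p) + p * a' - S‖) (hden : 0 < dl - gu * r')
    (hr : ρ * r' * dl + bu ≤ r * (dl - gu * r')) : ‖q - a * y‖ ≤ r * ‖q - p * y‖ := by
  set u' := (μ * q + S * y) - a' * (q + μ * y) with hu'
  set w' := (μ * q + S * y) - p' * (q + μ * y) with hw'
  set α := μ * (p' - a) + a * p' - S with hαd
  set β := μ * (a' - a) + a * a' - S with hβd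
  set γ := μ * (p' - p) + p * p' - S with hγd
  set δ := μ * (a' - p) + p * a' - S with hδd
  have hgu : 0 ≤ gu := (norm_nonneg _).trans hγ
  have hbu : 0 ≤ bu := (norm_nonneg _).trans hβ
  have hg0 : 0 ≤ gu * r' := mul_nonneg hgu hr'
  have hdl : 0 < dl := by linarith
  have hρr : 0 ≤ ρ * r' := mul_nonneg hρ hr'
  have hr0 : 0 ≤ r := by
    by_contra hc
    have : r * (dl - gu * r') < 0 := mul_neg_of_neg_of_pos (not_le.1 hc) hden
    nlinarith [mul_nonneg hρr hdl.le]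
  have hsl : ρ * r' ≤ r := by
    have : ρ * r' * dl ≤ r * dl := by nlinarith [mul_nonneg hr0 hg0]
    exact le_of_mul_le_mul_right this hdl
  have hkey : ρ * r' * ‖δ‖ + bu ≤ r * (‖δ‖ - gu * r') := by
    nlinarith [mul_nonneg (sub_nonneg.2 hsl) (sub_nonneg.2 hδ)]
  have e1 : (p' - a') * (μ ^ 2 - S) * (q - a * y) = α * u' - β * w' := by
    simp only [hαd, hβd, hu', hw']; ring
  have e2 : (p' - a') * (μ ^ 2 - S) * (q - p * y) = γ * u' - δ * w' := by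
    simp only [hγd, hδd, hu', hw']; ring
  have hw0 := norm_nonneg w'
  have b1 : ‖α * u' - β * w'‖ ≤ (ρ * r' * ‖δ‖ + bu) * ‖w'‖ := by
    have h1 : ‖α * u'‖ ≤ ρ * ‖δ‖ * (r' * ‖w'‖) := by
      rw [norm_mul]; exact mul_le_mul hα h (norm_nonneg _) (by positivity)
    have h2 : ‖β * w'‖ ≤ bu * ‖w'‖ := by
      rw [norm_mul]; exact mul_le_mul_of_nonneg_right hβ hw0
    have := norm_sub_le (α * u') (β * w')
    nlinarith
  have b2 : (‖δ‖ - gu * r') * ‖w'‖ ≤ ‖γ * u' - δ * w'‖ := by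
    have h1 : ‖γ * u'‖ ≤ gu * (r' * ‖w'‖) := by
      rw [norm_mul]; exact mul_le_mul hγ h (norm_nonneg _) hgu
    have h2 := norm_sub_norm_le (δ * w') (γ * u')
    rw [norm_mul, norm_sub_rev (δ * w') (γ * u')] at h2
    nlinarith
  by_cases hd : μ ^ 2 - S = 0
  · have hS : S = μ ^ 2 := by linear_combination -hd
    rw [hd, mul_zero, zero_mul] at e2
    rw [← e2, norm_zero] at b2
    have hw : ‖w'‖ = 0 := by
      refine le_antisymm ?_ hw0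
      by_contra hc
      have : 0 < (‖δ‖ - gu * r') * ‖w'‖ := mul_pos (by linarith) (not_le.1 hc)
      linarith
    have hu : ‖u'‖ = 0 := by
      rw [hw, mul_zero] at h; exact le_antisymm h (norm_nonneg _)
    rw [norm_eq_zero] at hw hu
    have hy : (p' - a') * (q + μ * y) = 0 := by
      have : (p' - a') * (q + μ * y) = u' - w' := by simp only [hu', hw']; ring
      rw [this, hu, hw, sub_zero]
    have hq : q = -(μ * y) := by
      have := (mul_eq_zero.1 hy).resolve_left (sub_ne_zero.2 hne)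
      linear_combination this
    have f1 : (a' - μ) * (q - a * y) = -(β * y) := by rw [hβd, hS, hq]; ring
    have f2 : (a' - μ) * (q - p * y) = -(δ * y) := by rw [hδd, hS, hq]; ring
    have hδ0 : a' - μ ≠ 0 := by
      intro h0
      have : δ = (μ + p) * (a' - μ) := by rw [hδd, hS]; ring
      rw [this, h0, mul_zero, norm_zero] at hδ
      linarith
    have hpos : 0 < ‖a' - μ‖ := norm_pos_iff.2 hδ0
    have g1 : ‖a' - μ‖ * ‖q - a * y‖ = ‖β‖ * ‖y‖ := by rw [← norm_mul, f1, norm_neg, norm_mul]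
    have g2 : ‖a' - μ‖ * ‖q - p * y‖ = ‖δ‖ * ‖y‖ := by rw [← norm_mul, f2, norm_neg, norm_mul]
    have g3 : ‖β‖ ≤ r * ‖δ‖ := by
      nlinarith [mul_nonneg hρr (norm_nonneg δ), mul_nonneg hr0 hg0]
    refine le_of_mul_le_mul_left ?_ hpos
    have := mul_le_mul_of_nonneg_right g3 (norm_nonneg y)
    calc ‖a' - μ‖ * ‖q - a * y‖ = ‖β‖ * ‖y‖ := g1
      _ ≤ r * ‖δ‖ * ‖y‖ := this
      _ = r * (‖a' - μ‖ * ‖q - p * y‖) := by rw [g2]; ring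
      _ = _ := by ring
  · have hpos : 0 < ‖(p' - a') * (μ ^ 2 - S)‖ :=
      norm_pos_iff.2 (mul_ne_zero (sub_ne_zero.2 hne) hd)
    refine le_of_mul_le_mul_left ?_ hpos
    rw [← norm_mul, e1, mul_left_comm, ← norm_mul, e2]
    calc ‖α * u' - β * w'‖ ≤ (ρ * r' * ‖δ‖ + bu) * ‖w'‖ := b1
      _ ≤ r * (‖δ‖ - gu * r') * ‖w'‖ := mul_le_mul_of_nonneg_right hkey hw0
      _ = r * ((‖δ‖ - gu * r') * ‖w'‖) := by ring
      _ ≤ _ := mul_le_mul_of_nonneg_left b2 hr0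

theorem ent_dev {μ μ₀ u v : ℂ} {c c₀ Z Z₀ em ec eZ mm ch : ℝ} (hμ : ‖μ - μ₀‖ ≤ em)
    (hc : |c - c₀| ≤ ec) (hZ : |Z - Z₀| ≤ eZ) (hm : ‖μ‖ ≤ mm) (hch : ‖v - u + I * Z₀‖ ≤ ch) :
    ‖(μ * (v - u) + u * v - (c - I * Z * μ)) - (μ₀ * (v - u) + u * v - (c₀ - I * Z₀ * μ₀))‖
      ≤ em * ch + (ec + eZ * mm) := by
  have e : (μ * (v - u) + u * v - (c - I * Z * μ)) - (μ₀ * (v - u) + u * v - (c₀ - I * Z₀ * μ₀))
      = (μ - μ₀) * (v - u + I * Z₀) - ((c - c₀ : ℝ) : ℂ) + I * ((Z - Z₀ : ℝ) : ℂ) * μ := by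
    push_cast; ring
  rw [e]
  have h1 : ‖(μ - μ₀) * (v - u + I * Z₀)‖ ≤ em * ch := by
    rw [norm_mul]; exact mul_le_mul hμ hch (norm_nonneg _) ((norm_nonneg _).trans hμ)
  have h2 : ‖((c - c₀ : ℝ) : ℂ)‖ ≤ ec := by rwa [Complex.norm_real, Real.norm_eq_abs]
  have h3 : ‖I * ((Z - Z₀ : ℝ) : ℂ) * μ‖ ≤ eZ * mm := by
    rw [norm_mul, norm_mul, norm_I, one_mul, Complex.norm_real, Real.norm_eq_abs]
    exact mul_le_mul hZ hm (norm_nonneg _) ((abs_nonneg _).trans hZ)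
  have h4 := norm_add_le ((μ - μ₀) * (v - u + I * Z₀) - ((c - c₀ : ℝ) : ℂ))
    (I * ((Z - Z₀ : ℝ) : ℂ) * μ)
  have h5 := norm_sub_le ((μ - μ₀) * (v - u + I * Z₀)) ((c - c₀ : ℝ) : ℂ)
  linarith

theorem diag_sq (μ a a' : ℂ) (c Z : ℝ) :
    ‖μ * (a' - -a) + -a * a' - (c - I * Z * μ)‖ ^ 2
      - ‖μ * (-a' - a) + a * -a' - (c - I * Z * μ)‖ ^ 2
      = 4 * (μ.re * ((-a.re + -a'.re) * c + -a'.re * (a.re ^ 2 + a.im ^ 2)
          + -a.re * (a'.re ^ 2 + a'.im ^ 2))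
        - μ.im * ((-a.im + -a'.im) * c - -a'.im * (a.re ^ 2 + a.im ^ 2)
          - -a.im * (a'.re ^ 2 + a'.im ^ 2))
        - (-a.im + -a'.im) * Z * (μ.re ^ 2 + μ.im ^ 2)) := by
  simp only [Complex.sq_norm, normSq_apply, sub_re, add_re, mul_re, sub_im, add_im, mul_im, neg_re,
    neg_im, ofReal_re, ofReal_im, I_re, I_im]
  ring

theorem dlow_dev {ν ω c Z mr mi c₀ Z₀ en ew em ec eZ mm Sr Si Vr Vi pz : ℝ}
    (hν : |ν - mr| ≤ en) (hω : |ω - mi| ≤ ew) (hem : en ^ 2 + ew ^ 2 ≤ em ^ 2)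
    (hc : |c - c₀| ≤ ec) (hZ : |Z - Z₀| ≤ eZ) (hm : ν ^ 2 + ω ^ 2 ≤ mm ^ 2)
    (hp0 : 0 ≤ pz) (hp : Si * Z₀ ≤ pz) :
    mr * (Sr * c₀ + Vr) - mi * (Si * c₀ - Vi) - Si * Z₀ * (mr ^ 2 + mi ^ 2)
      - (|Sr * c₀ + Vr - Si * Z₀ * mr * 2| * en + |Si * c₀ - Vi + Si * Z₀ * mi * 2| * ew
        + (|mr * Sr - mi * Si| + (en * |Sr| + ew * |Si|)) * ec
        + (pz * (em * em) + eZ * |Si| * (mm * mm)))
      ≤ ν * (Sr * c + Vr) - ω * (Si * c - Vi) - Si * Z * (ν ^ 2 + ω ^ 2) := by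
  have hen : 0 ≤ en := (abs_nonneg _).trans hν
  have hew : 0 ≤ ew := (abs_nonneg _).trans hω
  have hec : 0 ≤ ec := (abs_nonneg _).trans hc
  have key : ∀ x y e : ℝ, |y| ≤ e → -(|x| * e) ≤ x * y := fun x y e hy => by
    have h1 : |x * y| ≤ |x| * e := by
      rw [abs_mul]; exact mul_le_mul_of_nonneg_left hy (abs_nonneg _)
    exact (abs_le.1 h1).1
  have t1 := key (Sr * c₀ + Vr - Si * Z₀ * mr * 2) (ν - mr) en hν
  have t2 := key (-(Si * c₀ - Vi + Si * Z₀ * mi * 2)) (ω - mi) ew hω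
  rw [abs_neg] at t2
  have t3 := key (ν * Sr - ω * Si) (c - c₀) ec hc
  have t4 : |ν * Sr - ω * Si| ≤ |mr * Sr - mi * Si| + (en * |Sr| + ew * |Si|) := by
    have e : ν * Sr - ω * Si = (mr * Sr - mi * Si) + ((ν - mr) * Sr - (ω - mi) * Si) := by ring
    rw [e]
    refine (abs_add_le _ _).trans (add_le_add le_rfl ((abs_sub _ _).trans ?_))
    rw [abs_mul, abs_mul]
    exact add_le_add (mul_le_mul_of_nonneg_right hν (abs_nonneg _))
      (mul_le_mul_of_nonneg_right hω (abs_nonneg _))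
  have t5 := mul_le_mul_of_nonneg_right t4 hec
  have t6 : (ν - mr) ^ 2 + (ω - mi) ^ 2 ≤ em * em := by
    have h1 := sq_le_sq' (abs_le.1 hν).1 (abs_le.1 hν).2
    have h2 := sq_le_sq' (abs_le.1 hω).1 (abs_le.1 hω).2
    nlinarith
  have t7 : Si * Z₀ * ((ν - mr) ^ 2 + (ω - mi) ^ 2) ≤ pz * (em * em) :=
    mul_le_mul hp t6 (by positivity) hp0
  have t8 := key (-(Si * (ν ^ 2 + ω ^ 2))) (Z - Z₀) eZ hZ
  have t9 : |-(Si * (ν ^ 2 + ω ^ 2))| * eZ ≤ eZ * |Si| * (mm * mm) := by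
    rw [abs_neg, abs_mul, abs_of_nonneg (by positivity : 0 ≤ ν ^ 2 + ω ^ 2)]
    have := mul_le_mul_of_nonneg_left hm (mul_nonneg ((abs_nonneg _).trans hZ) (abs_nonneg Si))
    nlinarith
  nlinarith

theorem ratio_of_ok {x w N t A B du dl : ℝ} (hN : 0 < N) (ht : 0 ≤ t) (hx : 0 ≤ x) (hw : 0 ≤ w)
    (hdl0 : 0 ≤ dl) (hdl : dl ≤ x) (hdu : x ≤ du) (hD : A - B ≤ x ^ 2 - w ^ 2)
    (h1 : N ^ 2 * (du * du + B) ≤ t * t * (du * du) + N ^ 2 * A)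
    (h2 : N ^ 2 * (dl * dl + B) ≤ t * t * (dl * dl) + N ^ 2 * A) : w ≤ t / N * x := by
  have a1 : dl * dl ≤ x ^ 2 := by nlinarith
  have a2 : x ^ 2 ≤ du * du := by nlinarith
  have h3 : (N ^ 2 - t * t) * x ^ 2 ≤ N ^ 2 * (A - B) := by
    rcases le_total 0 (N ^ 2 - t * t) with h | h
    · nlinarith [mul_le_mul_of_nonneg_left a2 h]
    · nlinarith [mul_le_mul_of_nonpos_left a1 h]
  have h4 : (N * w) ^ 2 ≤ (t * x) ^ 2 := by
    nlinarith [mul_le_mul_of_nonneg_left hD (sq_nonneg N)]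
  have h5 : N * w ≤ t * x := by
    exact (pow_le_pow_iff_left₀ (by positivity) (by positivity) two_ne_zero).1 h4
  rw [div_mul_eq_mul_div, le_div_iff₀ hN]
  linarith

theorem init_abs {y q a : ℂ} (h1 : (conj y * q).re ≤ 0) (h2 : 0 ≤ (conj y * q).im)
    (ha : a.re ≤ 0) (hb : 0 ≤ a.im) : ‖q - a * y‖ ≤ ‖q - -a * y‖ := by
  refine (pow_le_pow_iff_left₀ (norm_nonneg _) (norm_nonneg _) two_ne_zero).1 ?_
  simp only [Complex.sq_norm, normSq_apply, sub_re, mul_re, sub_im, mul_im, neg_re, neg_im,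
    conj_re, conj_im] at h1 h2 ⊢
  nlinarith [mul_nonneg_of_nonpos_of_nonpos h1 ha, mul_nonneg h2 hb]

theorem disc_abs {z a p : ℂ} {N r : ℝ} (hr : 0 ≤ r) (hN : r < N) (h : N * ‖z - a‖ ≤ r * ‖z - p‖) :
    ‖((N ^ 2 - r ^ 2 : ℝ) : ℂ) * z - (((N ^ 2 : ℝ) : ℂ) * a - ((r ^ 2 : ℝ) : ℂ) * p)‖
      ≤ r * N * ‖p - a‖ := by
  have hN0 : 0 < N := by linarith
  have h2 : (N * ‖z - a‖) ^ 2 ≤ (r * ‖z - p‖) ^ 2 := pow_le_pow_left₀ (by positivity) h 2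
  refine (pow_le_pow_iff_left₀ (norm_nonneg _) (by positivity) two_ne_zero).1 ?_
  have h3 : 0 ≤ N ^ 2 - r ^ 2 := by nlinarith
  have h4 := mul_le_mul_of_nonneg_left h2 h3
  simp only [mul_pow, Complex.sq_norm, normSq_apply, sub_re, mul_re, sub_im, mul_im, ofReal_re,
    ofReal_im] at h4 ⊢
  nlinarith

theorem joint_abs {y q a p A B : ℂ} {N r t l u₁ u₂ u₃ : ℝ} (hN : 0 < N) (hr : 0 ≤ r) (ht : 0 ≤ t)
    (hne : a ≠ p) (h1 : N * ‖q - a * y‖ ≤ r * ‖q - p * y‖) (h2 : N * ‖q - A * y‖ ≤ t * ‖q - B * y‖)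
    (hl : l ≤ ‖A - a‖) (hu₁ : ‖B - a‖ ≤ u₁) (hu₂ : ‖p - B‖ ≤ u₂) (hu₃ : ‖p - A‖ ≤ u₃)
    (h : t * (u₁ * N + r * u₂) + r * u₃ * N < l * N ^ 2) : y = 0 ∧ q = 0 := by
  set u := q - a * y with hu
  set w := q - p * y with hw
  have e1 : (A - a) * w = (p - a) * (q - A * y) - (p - A) * u := by simp only [hu, hw]; ring
  have e2 : (p - a) * (q - B * y) = (p - B) * u + (B - a) * w := by simp only [hu, hw]; ring
  have hw0 := norm_nonneg w
  have hu0 := norm_nonneg u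
  have b1 : l * ‖w‖ ≤ ‖p - a‖ * ‖q - A * y‖ + u₃ * ‖u‖ := by
    have h3 := norm_sub_le ((p - a) * (q - A * y)) ((p - A) * u)
    rw [← e1, norm_mul, norm_mul, norm_mul] at h3
    nlinarith [mul_le_mul_of_nonneg_right hl hw0, mul_le_mul_of_nonneg_right hu₃ hu0]
  have b2 : ‖p - a‖ * ‖q - B * y‖ ≤ u₂ * ‖u‖ + u₁ * ‖w‖ := by
    have h3 := norm_add_le ((p - B) * u) ((B - a) * w)
    rw [← e2, norm_mul, norm_mul, norm_mul] at h3
    nlinarith [mul_le_mul_of_nonneg_right hu₂ hu0, mul_le_mul_of_nonneg_right hu₁ hw0]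
  have hu2 : 0 ≤ u₂ := (norm_nonneg _).trans hu₂
  have hu3 : 0 ≤ u₃ := (norm_nonneg _).trans hu₃
  have b3 := mul_le_mul_of_nonneg_left h2 (norm_nonneg (p - a))
  have b4 := mul_le_mul_of_nonneg_left b2 ht
  have b5 : N * (l * ‖w‖) ≤ t * (u₂ * ‖u‖ + u₁ * ‖w‖) + u₃ * (N * ‖u‖) := by
    nlinarith [mul_le_mul_of_nonneg_left b1 hN.le]
  have b6 : l * N ^ 2 * ‖w‖ ≤ (t * (u₁ * N + r * u₂) + r * u₃ * N) * ‖w‖ := by
    nlinarith [mul_le_mul_of_nonneg_left b5 hN.le,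
      mul_le_mul_of_nonneg_left h1 (mul_nonneg ht hu2),
      mul_le_mul_of_nonneg_left h1 (mul_nonneg hu3 hN.le)]
  have hw1 : ‖w‖ = 0 := by
    refine le_antisymm ?_ hw0
    by_contra hc
    nlinarith [mul_lt_mul_of_pos_right h (not_le.1 hc)]
  have hu1 : ‖u‖ = 0 := by
    rw [hw1, mul_zero] at h1
    exact le_antisymm (by nlinarith) hu0
  rw [norm_eq_zero] at hw1 hu1
  have hy : y = 0 := by
    have : (p - a) * y = u - w := by simp only [hu, hw]; ring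
    rw [hu1, hw1, sub_zero] at this
    exact (mul_eq_zero.1 this).resolve_left (sub_ne_zero.2 hne.symm)
  refine ⟨hy, ?_⟩
  rw [hu, hy, mul_zero, sub_zero] at hu1
  exact hu1

end Vale.Agent.P139Z.Num
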