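import Vale.Agent.P139Z.Num.Arith
import Vale.Agent.P139Z.Num.Step

/-! Soundness of the single steps of the checker. -/

open Complex
open scoped ComplexConjugate

namespace Vale.Agent.P139Z.Num

/-- The parameters `μ, c, Z` lie in the box. -/
structure InBox (P : Par) (mr : ℝ) (μ : ℂ) (c Z : ℝ) : Prop where
  re : |μ.re - mr| ≤ P.en
  im : |μ.im - P.mi.val| ≤ P.ew
  em : (P.en : ℝ) ^ 2 + (P.ew : ℝ) ^ 2 ≤ (P.em : ℝ) ^ 2
  hc : |c - P.c| ≤ P.ec
  hZ : |Z - P.Z| ≤ P.eZ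

/-- The ratio `q / y` lies in the disc. -/
def Inv (s : St) (y q : ℂ) : Prop :=
  cx s.pr s.pi ≠ cx s.ar s.ai ∧
    4294967296 * ‖q - cx s.ar s.ai * y‖ ≤ s.r * ‖q - cx s.pr s.pi * y‖

/-- The reference points are symmetric. -/
def Sym (s : St) : Prop := s.pr = neg s.ar ∧ s.pi = neg s.ai

theorem InBox.dist {P : Par} {mr : SI} {μ : ℂ} {c Z : ℝ} (h : InBox P mr.val μ c Z) :
    ‖μ - cx mr P.mi‖ ≤ P.em := by
  refine (pow_le_pow_iff_left₀ (norm_nonneg _) (Nat.cast_nonneg _) two_ne_zero).1 ?_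
  have h1 := sq_le_sq' (abs_le.1 h.re).1 (abs_le.1 h.re).2
  have h2 := sq_le_sq' (abs_le.1 h.im).1 (abs_le.1 h.im).2
  have h3 := h.em
  rw [Complex.sq_norm, normSq_apply, sub_re, sub_im, cx_re, cx_im]
  nlinarith

theorem InBox.norm_le {P : Par} {mr : SI} {μ : ℂ} {c Z : ℝ} (h : InBox P mr.val μ c Z) :
    ‖μ‖ ≤ (Nat.add (Nat.add (ab mr) (ab P.mi)) P.em : ℕ) := by
  have h1 := h.dist
  have h2 := norm_add_le (μ - cx mr P.mi) (cx mr P.mi)
  have h3 := Complex.norm_le_abs_re_add_abs_im (cx mr P.mi)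
  rw [sub_add_cancel] at h2
  rw [cx_re, cx_im] at h3
  rw [c_add, c_add, c_ab, c_ab]
  linarith

theorem back_ex (mr mi sr si zr zi : SI) :
    ∃ xr xi : SI, ∀ k : SI → SI → Option St, back mr mi sr si zr zi k = k xr xi :=
  ⟨_, _, fun k => by simp only [back, fI_eq, fN_eq]; rfl⟩

theorem ent_ex {P : Par} {mr : SI} {μ : ℂ} {c Z : ℝ} (h : InBox P mr.val μ c Z)
    (ur ui vr vi : SI) : ∃ er ei e : ℕ, (∀ k : ℕ → ℕ → ℕ → Option St,
      ent mr P.mi (add (SI.p P.c) (mn P.mi P.Z)) (neg (mn mr P.Z)) P.Z P.em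
        (Nat.add P.ec (Nat.mul P.eZ (Nat.add (Nat.add (ab mr) (ab P.mi)) P.em))) ur ui vr vi k
        = k er ei e) ∧
      ‖μ * (cx vr vi - cx ur ui) + cx ur ui * cx vr vi - (c - I * Z * μ)‖ ≤ up er ei + e ∧
      ‖μ * (cx vr vi - cx ur ui) + cx ur ui * cx vr vi - (c - I * Z * μ)‖ ≤ cheap er ei + e ∧
      ((Nat.sub (lo er ei) e : ℕ) : ℝ)
        ≤ ‖μ * (cx vr vi - cx ur ui) + cx ur ui * cx vr vi - (c - I * Z * μ)‖ := by
  refine ⟨_, _, _, fun k => by simp only [ent, fI_eq, fN_eq]; rfl, ?_⟩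
  have hd := ent_dev (u := cx ur ui) (v := cx vr vi) h.dist h.hc h.hZ h.norm_le
    (norm_le_cheap (a := ab (sub vr ur)) (b := ab (add (sub vi ui) (SI.p P.Z)))
      (by simp [c_ab, val_sub, cx]) (by simp [c_ab, val_sub, val_add, val_p, cx]))
  set X := μ * (cx vr vi - cx ur ui) + cx ur ui * cx vr vi - (c - I * Z * μ)
  set X₀ := cx mr P.mi * (cx vr vi - cx ur ui) + cx ur ui * cx vr vi
    - ((P.c : ℝ) - I * (P.Z : ℝ) * cx mr P.mi) with hX
  have e1 : |X₀.re| = ab (sub (add (sub (mul mr (sub vr ur)) (mul P.mi (sub vi ui)))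
      (sub (mul ur vr) (mul ui vi))) (add (SI.p P.c) (mn P.mi P.Z))) := by
    rw [c_ab]; congr 1
    simp only [hX, val_sub, val_add, val_mul, val_mn, val_p, sub_re, add_re, mul_re, sub_im, mul_im,
      cx_re, cx_im, ofReal_re, ofReal_im, I_re, I_im]
    ring
  have e2 : |X₀.im| = ab (sub (add (add (mul mr (sub vi ui)) (mul P.mi (sub vr ur)))
      (add (mul ur vi) (mul ui vr))) (neg (mn mr P.Z))) := by
    rw [c_ab]; congr 1
    simp only [hX, val_sub, val_add, val_mul, val_mn, val_neg, sub_re, add_im, mul_re, sub_im,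
      mul_im, cx_re, cx_im, ofReal_re, ofReal_im, I_re, I_im]
    ring
  have n1 := norm_le_up e1 e2
  have n2 := norm_le_cheap e1 e2
  have n3 := lo_le_norm e1 e2
  have n4 := norm_add_le (X - X₀) X₀
  have n5 := norm_sub_le X (X - X₀)
  rw [sub_add_cancel] at n4
  rw [sub_sub_cancel] at n5
  refine ⟨?_, ?_, c_sub_le ?_ (norm_nonneg _)⟩ <;> simp only [c_add, c_mul] at hd ⊢ <;> linarith

theorem dlow_ex {P : Par} {mr : SI} {μ : ℂ} {c Z : ℝ} (h : InBox P mr.val μ c Z)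
    (ar ai br bi : SI) : ∃ (D : SI) (e : ℕ), (∀ k : SI → ℕ → Option St,
      dlow P mr (Nat.add (Nat.add (ab mr) (ab P.mi)) P.em) (neg ar) (neg ai) (neg br) (neg bi) k
        = k D e) ∧
      4 * (D.val - e) ≤
        ‖μ * (cx br bi - -cx ar ai) + -cx ar ai * cx br bi - (c - I * Z * μ)‖ ^ 2
        - ‖μ * (-cx br bi - cx ar ai) + cx ar ai * -cx br bi - (c - I * Z * μ)‖ ^ 2 := by
  refine ⟨_, _, fun k => by simp only [dlow, fI_eq, fN_eq]; rfl, ?_⟩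
  rw [diag_sq]
  have hm : μ.re ^ 2 + μ.im ^ 2 ≤ ((Nat.add (Nat.add (ab mr) (ab P.mi)) P.em : ℕ) : ℝ) ^ 2 := by
    have := pow_le_pow_left₀ (norm_nonneg _) h.norm_le 2
    rw [Complex.sq_norm, normSq_apply] at this
    linarith
  have hp := le_pp (mn (add (neg ai) (neg bi)) P.Z)
  rw [val_mn, val_add, val_neg, val_neg] at hp
  have := dlow_dev (Sr := -ar.val + -br.val) (Si := -ai.val + -bi.val)
    (Vr := -br.val * (ar.val ^ 2 + ai.val ^ 2) + -ar.val * (br.val ^ 2 + bi.val ^ 2))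
    (Vi := -bi.val * (ar.val ^ 2 + ai.val ^ 2) + -ai.val * (br.val ^ 2 + bi.val ^ 2))
    h.re h.im h.em h.hc h.hZ hm (Nat.cast_nonneg _) hp
  simp only [← add_assoc, ← sub_sub] at this
  simp only [c_add, c_mul, c_ab, c_ss, val_add, val_sub, val_mul, val_mn, val_neg, cx_re, cx_im,
    sq_abs, abs_neg, Nat.cast_ofNat] at this ⊢
  linarith

theorem inv_div {x w r : ℝ} (h : 4294967296 * x ≤ r * w) : x ≤ r / 4294967296 * w := by
  linarith

theorem cx_ne_of_pos {a b c d : SI} (h : 0 < Nat.add (ab (sub a c)) (ab (sub b d))) :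
    cx a b ≠ cx c d := by
  intro he
  have h1 : a.val = c.val := congrArg Complex.re he
  have h2 : b.val = d.val := congrArg Complex.im he
  have h3 : (0 : ℝ) < (Nat.add (ab (sub a c)) (ab (sub b d)) : ℕ) := Nat.cast_pos.2 h
  rw [c_add, c_ab, c_ab, val_sub, val_sub, h1, h2] at h3
  simp at h3

theorem stepG_sound {P : Par} {mr : SI} {μ : ℂ} {c Z : ℝ} (hB : InBox P mr.val μ c Z) {s t : St}
    (h : stepG P mr s = some t) {y q : ℂ} (hs : Inv s (q + μ * y) (μ * q + (c - I * Z * μ) * y)) :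
    Inv t y q := by
  obtain ⟨ar, ai, ha⟩ := back_ex mr P.mi (add (SI.p P.c) (mn P.mi P.Z)) (neg (mn mr P.Z)) s.ar s.ai
  obtain ⟨pr, pi, hp⟩ := back_ex mr P.mi (add (SI.p P.c) (mn P.mi P.Z)) (neg (mn mr P.Z)) s.pr s.pi
  obtain ⟨xr, xi, xe, hx, hx1, -, -⟩ := ent_ex hB ar ai s.pr s.pi
  obtain ⟨br, bi, be, hb, -, hb1, -⟩ := ent_ex hB ar ai s.ar s.ai
  obtain ⟨gr, gi, ge, hg, -, hg1, -⟩ := ent_ex hB pr pi s.pr s.pi
  obtain ⟨dr, di, de, hd, -, -, hd1⟩ := ent_ex hB pr pi s.ar s.ai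
  simp only [stepG, fI_eq, fN_eq, ha, hp, hx, hb, hg, hd] at h
  obtain ⟨h1, h2⟩ := ite'_some h
  obtain ⟨h3, h4⟩ := an_eq.1 h1
  obtain rfl := Option.some.inj h2
  have h5 := le_div_succ (Nat.mul (Nat.add (Nat.mul (Nat.add (up xr xi) xe) s.r)
      (Nat.mul (Nat.add (cheap br bi) be) 4294967296)) 4294967296) (lt_eq.1 h3)
  have h6 := c_sub_pos (lt_eq.1 h3)
  have h7 : (0 : ℝ) < _ := Nat.cast_pos.2 (lt_eq.1 h3)
  rw [h6] at h5 h7
  refine ⟨cx_ne_of_pos (lt_eq.1 h4), ?_⟩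
  generalize Nat.succ _ = r at h5 ⊢
  generalize Nat.sub (lo dr di) de = dl at h5 h7 hd1
  simp only [c_add, c_mul, Nat.cast_ofNat] at h5 h7
  have hg0 : (0 : ℝ) ≤ (cheap gr gi + ge) * s.r := by positivity
  have hdl : (0 : ℝ) < dl := by linarith
  have key := step_abs (ρ := (up xr xi + xe) / dl) (r := r / 4294967296) hs.1 (inv_div hs.2)
    (by positivity) (by positivity)
    (hx1.trans (by rw [div_mul_eq_mul_div, le_div_iff₀ hdl]; gcongr)) hb1 hg1 hd1 (by linarith)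
    (by
      have e : ((up xr xi : ℝ) + xe) / dl * (s.r / 4294967296) * dl
        = (up xr xi + xe) * (s.r / 4294967296) := by field_simp
      rw [e]; linarith)
  linarith

theorem stepS_sound {P : Par} {mr : SI} {μ : ℂ} {c Z : ℝ} (hB : InBox P mr.val μ c Z) {s t : St}
    (h : stepS P mr s = some t) (hS : Sym s) {y q : ℂ}
    (hs : Inv s (q + μ * y) (μ * q + (c - I * Z * μ) * y)) : Sym t ∧ Inv t y q := by
  obtain ⟨ar, ai, ha⟩ := back_ex mr P.mi (add (SI.p P.c) (mn P.mi P.Z)) (neg (mn mr P.Z)) s.ar s.ai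
  obtain ⟨dr, di, de, hd, hd2, -, hd1⟩ := ent_ex hB (neg ar) (neg ai) s.ar s.ai
  obtain ⟨br, bi, be, hb, -, hb1, -⟩ := ent_ex hB ar ai s.ar s.ai
  obtain ⟨gr, gi, ge, hg, -, hg1, -⟩ := ent_ex hB (neg ar) (neg ai) (neg s.ar) (neg s.ai)
  obtain ⟨D, e, hD, hD1⟩ := dlow_ex hB ar ai s.ar s.ai
  simp only [stepS, fI_eq, fN_eq, ha, hb, hg, hd, hD] at h
  obtain ⟨h1, h2⟩ := ite'_some h
  obtain ⟨h3, h4⟩ := an_eq.1 h1
  obtain ⟨h3, h3'⟩ := an_eq.1 h3
  obtain ⟨h4, h4'⟩ := an_eq.1 h4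
  obtain rfl := Option.some.inj h2
  refine ⟨⟨rfl, rfl⟩, ?_, ?_⟩
  · rw [cx_neg]
    intro he
    have h1 : -ar.val = ar.val := congrArg Complex.re he
    have h2 : -ai.val = ai.val := congrArg Complex.im he
    have h3 : (0 : ℝ) < (Nat.add (ab ar) (ab ai) : ℕ) := Nat.cast_pos.2 (lt_eq.1 h3')
    rw [c_add, c_ab, c_ab, show ar.val = 0 by linarith, show ai.val = 0 by linarith] at h3
    simp at h3
  obtain ⟨hs1, hs2⟩ := hs
  rw [hS.1, hS.2, cx_neg] at hs1 hs2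
  simp only [cx_neg] at hd1 hd2 hg1 ⊢
  change ((Nat.sub (Nat.div (ss dr di) (up dr di)) de : ℕ) : ℝ) ≤ _ at hd1
  generalize Nat.sub (Nat.div (ss dr di) (up dr di)) de = dl at *
  generalize rho _ _ _ _ = t at *
  have h5 := le_div_succ (Nat.add (Nat.mul (Nat.mul t s.r) dl)
      (Nat.mul (Nat.add (cheap br bi) be) 18446744073709551616)) (lt_eq.1 h3)
  have h6 := c_sub_pos (lt_eq.1 h3)
  have h7 : (0 : ℝ) < _ := Nat.cast_pos.2 (lt_eq.1 h3)
  rw [h6] at h5 h7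
  generalize Nat.succ _ = r at h5 ⊢
  have k1 : ((_ : ℕ) : ℝ) ≤ ((_ : ℕ) : ℝ) := Nat.cast_le.2 (Nat.le_of_ble_eq_true h4)
  have k2 : ((_ : ℕ) : ℝ) ≤ ((_ : ℕ) : ℝ) := Nat.cast_le.2 (Nat.le_of_ble_eq_true h4')
  simp only [c_add, c_mul, Nat.cast_ofNat] at h5 h7 k1 k2
  have hr := ratio_of_ok (N := 4294967296) (t := t) (A := 4 * pp D) (B := 4 * (pm D + e))
    (by norm_num) (Nat.cast_nonneg _) (norm_nonneg _) (norm_nonneg _) (Nat.cast_nonneg _) hd1 hd2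
    (le_of_eq_of_le (by rw [← pp_sub_pm D]; ring) hD1) (by linarith) (by linarith)
  have key := step_abs (r := r / 4294967296) hs1 (inv_div hs2)
    (by positivity) (by positivity) hr hb1 hg1 hd1 (by linarith) (by linarith)
  linarith

end Vale.Agent.P139Z.Num
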