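import Vale.Agent.P139Z.Num.Sound
import Vale.Agent.P139Z.Num.Ch

/-! Soundness of the chains and of the subdivision trees. -/

open Complex
open scoped ComplexConjugate

namespace Vale.Agent.P139Z.Num

theorem Inv.smul {s : St} {y q : ℂ} (h : Inv s y q) (c : ℂ) : Inv s (c * y) (c * q) := by
  refine ⟨h.1, ?_⟩
  have e : ∀ a : ℂ, c * q - a * (c * y) = c * (q - a * y) := fun a => by ring
  rw [e, e, norm_mul, norm_mul]
  nlinarith [mul_le_mul_of_nonneg_left h.2 (norm_nonneg c)]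

theorem InBox.shift {P : Par} {mr : SI} {ν ω c Z : ℝ} (h : InBox P mr.val (ν + I * ω) c Z) (j : ℕ) :
    InBox P (add mr (SI.p (Nat.mul j 4294967296))).val (ν + j * 4294967296 + I * ω) c Z := by
  refine ⟨?_, ?_, h.em, h.hc, h.hZ⟩
  · have := h.re
    rw [val_add, val_p, c_mul]
    simpa using this
  · simpa using h.im

theorem Ch.inv {ν ω b Z : ℝ} {y q : ℕ → ℂ} (h : Ch ν ω b Z y q) {s : St} {j : ℕ}
    (hs : Inv s (y (j + 1)) (q (j + 1))) :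
    Inv s (q j + (ν + j * 4294967296 + I * ω) * y j) ((ν + j * 4294967296 + I * ω) * q j
      + (((b ^ 2 + Z ^ 2 / 4 : ℝ) : ℂ) - I * Z * (ν + j * 4294967296 + I * ω)) * y j) := by
  rw [← h.ry, ← h.rq]
  exact hs.smul _

theorem opt_rec {α β : Type} {f : α → Option β} {o : Option α} {t : β}
    (h : (Option.rec none f o : Option β) = some t) : ∃ s, o = some s ∧ f s = some t := by
  cases o with
  | none => exact absurd h (by simp)
  | some s => exact ⟨s, rfl, h⟩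

theorem opt_rec' {α : Type} {f : α → Bool} {o : Option α}
    (h : (Option.rec false f o : Bool) = true) : ∃ s, o = some s ∧ f s = true := by
  cases o with
  | none => exact absurd h (by simp)
  | some s => exact ⟨s, rfl, h⟩

theorem runS_sound {ν ω b Z : ℝ} {y q : ℕ → ℂ} (h : Ch ν ω b Z y q) {P : Par} {mr : SI}
    (hB : InBox P mr.val (ν + I * ω) (b ^ 2 + Z ^ 2 / 4) Z) (J n : ℕ) {s t : St}
    (hr : runS P mr J n s = some t) (hS : Sym s) (hs : Inv s (y (J + n)) (q (J + n))) :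
    Inv t (y J) (q J) := by
  induction n generalizing s with
  | zero => obtain rfl := Option.some.inj hr; exact hs
  | succ n ih =>
    obtain ⟨u, h1, h2⟩ := opt_rec (f := runS P mr J n) hr
    rw [fI_eq] at h1
    obtain ⟨h3, h4⟩ := stepS_sound (hB.shift (J + n)) h1 hS (h.inv hs)
    exact ih h2 h3 h4

theorem runG_sound {ν ω b Z : ℝ} {y q : ℕ → ℂ} (h : Ch ν ω b Z y q) {P : Par} {mr : SI}
    (hB : InBox P mr.val (ν + I * ω) (b ^ 2 + Z ^ 2 / 4) Z) (n : ℕ) {s t : St}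
    (hr : runG P mr n s = some t) (hs : Inv s (y n) (q n)) : Inv t (y 0) (q 0) := by
  induction n generalizing s with
  | zero => obtain rfl := Option.some.inj hr; exact hs
  | succ n ih =>
    obtain ⟨u, h1, h2⟩ := opt_rec (f := runG P mr n) hr
    rw [fI_eq] at h1
    exact ih h2 (stepG_sound (hB.shift n) h1 (h.inv hs))

theorem abs_le_mx {lo hi m : SI} {x : ℝ} (h0 : lo.val ≤ x) (h1 : x ≤ hi.val) :
    |x - m.val| ≤ mx (ab (sub hi m)) (ab (sub m lo)) := by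
  rw [mx_eq, Nat.cast_max, c_ab, c_ab, val_sub, val_sub, abs_le]
  constructor
  · have := le_max_right |hi.val - m.val| |m.val - lo.val|
    have := le_abs_self (m.val - lo.val)
    linarith
  · have := le_max_left |hi.val - m.val| |m.val - lo.val|
    have := le_abs_self (hi.val - m.val)
    linarith

theorem abs_le_mid {lo hi : ℕ} {x : ℝ} (h0 : (lo : ℝ) ≤ x) (h1 : x ≤ hi) :
    |x - (Nat.div (Nat.add lo hi) 2 : ℕ)| ≤ (Nat.sub hi (Nat.div (Nat.add lo hi) 2) : ℕ) := by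
  have h2 : lo ≤ hi := by exact_mod_cast h0.trans h1
  change |x - (((lo + hi) / 2 : ℕ) : ℝ)| ≤ ((hi - (lo + hi) / 2 : ℕ) : ℝ)
  have h3 : (lo + hi) / 2 ≤ hi := by omega
  have h4 : 2 * ((lo + hi) / 2) ≤ lo + hi := by omega
  have h5 : (2 : ℝ) * (((lo + hi) / 2 : ℕ) : ℝ) ≤ lo + hi := by exact_mod_cast h4
  rw [Nat.cast_sub h3, abs_le]
  constructor <;> linarith

theorem mkPar_ex (nlo nhi wlo whi : SI) (blo bhi Zlo Zhi : ℕ) : ∃ (mr : SI) (P : Par),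
    (∀ k : SI → Par → Option St, mkPar nlo nhi wlo whi blo bhi Zlo Zhi k = k mr P) ∧
    ∀ ν ω b Z : ℝ, nlo.val ≤ ν → ν ≤ nhi.val → wlo.val ≤ ω → ω ≤ whi.val → (blo : ℝ) ≤ b →
      b ≤ bhi → (Zlo : ℝ) ≤ Z → Z ≤ Zhi →
      InBox P mr.val (ν + I * ω) (b ^ 2 + Z ^ 2 / 4) Z := by
  refine ⟨_, _, fun k => by simp only [mkPar, fI_eq, fN_eq]; rfl, ?_⟩
  intro ν ω b Z h1 h2 h3 h4 h5 h6 h7 h8
  refine ⟨?_, ?_, ?_, ?_, abs_le_mid h7 h8⟩
  · simpa using abs_le_mx h1 h2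
  · simpa using abs_le_mx h3 h4
  · rw [← c_ss]; exact_mod_cast up_spec _ _
  · have b0 : (0 : ℝ) ≤ blo := Nat.cast_nonneg _
    have z0 : (0 : ℝ) ≤ Zlo := Nat.cast_nonneg _
    refine abs_le_mid ?_ ?_
    · have e : ((Nat.div (Nat.mul Zlo Zlo) 4 : ℕ) : ℝ) ≤ (Nat.mul Zlo Zlo : ℕ) / (4 : ℕ) :=
        Nat.cast_div_le
      rw [c_add, c_mul]
      rw [c_mul, Nat.cast_ofNat] at e
      nlinarith
    · have e := le_div_succ (Nat.mul Zhi Zhi) (d := 4) (by norm_num)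
      rw [c_succ, c_add, c_mul]
      rw [c_succ, c_mul, Nat.cast_ofNat] at e
      nlinarith

theorem chain_sound {nlo nhi wlo whi : SI} {blo bhi Zlo Zhi n J hr hi : ℕ} {t : St}
    (ht : chain nlo nhi wlo whi blo bhi Zlo Zhi n J hr hi = some t) {ν ω b Z : ℝ} {y q : ℕ → ℂ}
    (h : Ch ν ω b Z y q) (h1 : nlo.val ≤ ν) (h2 : ν ≤ nhi.val) (h3 : wlo.val ≤ ω)
    (h4 : ω ≤ whi.val) (h5 : (blo : ℝ) ≤ b) (h6 : b ≤ bhi) (h7 : (Zlo : ℝ) ≤ Z) (h8 : Z ≤ Zhi) :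
    Inv t (y 0) (q 0) := by
  obtain ⟨mr, P, hm, hB⟩ := mkPar_ex nlo nhi wlo whi blo bhi Zlo Zhi
  have hB := hB ν ω b Z h1 h2 h3 h4 h5 h6 h7 h8
  rw [chain, hm] at ht
  obtain ⟨k1, k2⟩ := ite'_some ht
  obtain ⟨k3, k4⟩ := an_eq.1 k1
  obtain ⟨u, k5, k6⟩ := opt_rec k2
  have k7 : 4 ≤ J + n := Nat.le_of_ble_eq_true k3
  have hS : Sym (init hr hi) := ⟨rfl, rfl⟩
  refine runG_sound h hB J k6 (runS_sound h hB J n k5 hS ⟨?_, ?_⟩)
  · intro he
    have e1 := congrArg Complex.re he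
    have e2 := congrArg Complex.im he
    have e3 : (0 : ℝ) < (Nat.add hr hi : ℕ) := Nat.cast_pos.2 (lt_eq.1 k4)
    simp only [init, cx_re, cx_im, val_p, val_m, c_mul, c_add, Nat.cast_ofNat] at e1 e2 e3
    linarith
  · rw [hS.1, hS.2, cx_neg]
    have := init_abs (a := cx (init hr hi).ar (init hr hi).ai) (h.re _ k7) (h.im _ k7)
      (by simp [init, cx_re, val_m]) (by simp [init, cx_im, val_p])
    have e : (((init hr hi).r : ℕ) : ℝ) = 4294967296 := by simp [init]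
    rw [e]
    linarith

theorem finalS_sound {s : St} {b : ℕ} (h : finalS s b = true) {y q : ℂ} (hs : Inv s y q) :
    (conj y * q).re < b * ‖y‖ ^ 2 ∨ (y = 0 ∧ q = 0) := by
  obtain ⟨h1, h2⟩ := an_eq.1 h
  have h3 : (s.r : ℝ) < 4294967296 := by exact_mod_cast lt_eq.1 h1
  have h4 := pos_val h2
  simp only [val_sub, val_add, val_p, val_mn, c_mul, c_add, Nat.cast_ofNat] at h4
  have h5 := hs.2
  by_cases hy : y = 0
  · right
    rw [hy, mul_zero, mul_zero, sub_zero] at h5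
    exact ⟨hy, norm_eq_zero.1 (le_antisymm (by nlinarith [norm_nonneg q]) (norm_nonneg _))⟩
  left
  obtain ⟨z, rfl⟩ : ∃ z, q = z * y := ⟨q / y, by field_simp⟩
  have hp : 0 < ‖y‖ := norm_pos_iff.2 hy
  rw [← sub_mul, ← sub_mul, norm_mul, norm_mul, ← mul_assoc, ← mul_assoc] at h5
  have h6 := disc_abs (Nat.cast_nonneg _) h3 (le_of_mul_le_mul_right h5 hp)
  have h7 := (Complex.re_le_norm _).trans h6
  have h8 := mul_le_mul_of_nonneg_left (norm_le_upd s.pr s.pi s.ar s.ai)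
    (by positivity : (0 : ℝ) ≤ s.r * 4294967296)
  simp only [sub_re, re_ofReal_mul, cx_re] at h7
  have h9 : 0 < (4294967296 : ℝ) ^ 2 - (s.r : ℝ) ^ 2 := by nlinarith [Nat.cast_nonneg (α := ℝ) s.r]
  have h10 : z.re < b := lt_of_mul_lt_mul_left (a := (4294967296 : ℝ) ^ 2 - (s.r : ℝ) ^ 2)
    (by linarith) h9.le
  have e : (conj y * (z * y)).re = z.re * ‖y‖ ^ 2 := by
    rw [Complex.sq_norm, normSq_apply]
    simp only [mul_re, mul_im, conj_re, conj_im]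
    ring
  rw [e]
  exact mul_lt_mul_of_pos_right h10 (by positivity)

theorem finalJ_sound {s t : St} {b : ℕ} (h : finalJ s t b = true) {y q : ℂ} (hs : Inv s y q)
    (ht : Inv t (-conj y) (conj q - ((b : ℝ) : ℂ) * conj y)) : y = 0 ∧ q = 0 := by
  simp only [finalJ, fI_eq] at h
  have h1 : ((_ : ℕ) : ℝ) < ((_ : ℕ) : ℝ) := Nat.cast_lt.2 (lt_eq.1 h)
  simp only [c_mul, c_add, Nat.cast_ofNat] at h1
  have e : ∀ u v : SI, ‖conj q - ((b : ℝ) : ℂ) * conj y - cx u v * -conj y‖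
      = ‖q - cx (sub (SI.p b) u) v * y‖ := fun u v => by
    rw [← Complex.norm_conj]
    congr 1
    apply Complex.ext <;> simp [cx, val_sub, val_p] <;> ring
  have h2 := ht.2
  rw [e, e] at h2
  exact joint_abs (by norm_num) (Nat.cast_nonneg _) (Nat.cast_nonneg _) hs.1.symm hs.2 h2
    (lod_le_norm _ _ _ _) (norm_le_upd _ _ _ _) (norm_le_upd _ _ _ _) (norm_le_upd _ _ _ _)
    (by linarith)

/-- The half-plane claim on a box. -/
def ClS (n0 n1 w0 w1 : ℝ) (l0 l1 : ℕ) : Prop :=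
  ∀ (l : ℕ) (ν ω Z : ℝ) (y q : ℕ → ℂ), l0 ≤ l → l ≤ l1 → n0 ≤ ν → ν ≤ n1 → w0 ≤ ω → ω ≤ w1 →
    11617027542 ≤ Z → Z ≤ 11619604523 → Ch ν ω ((l + 5) * 2147483648) Z y q →
    (conj (y 0) * q 0).re < (l + 5) * 2147483648 * ‖y 0‖ ^ 2 ∨ (y 0 = 0 ∧ q 0 = 0)

theorem ClS.sx {n0 m n1 w0 w1 : ℝ} {l0 l1 : ℕ} (h : ClS n0 m w0 w1 l0 l1)
    (h' : ClS m n1 w0 w1 l0 l1) : ClS n0 n1 w0 w1 l0 l1 :=
  fun l ν ω Z y q a1 a2 a3 a4 => (le_total ν m).elim (fun a => h l ν ω Z y q a1 a2 a3 a)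
    (fun a => h' l ν ω Z y q a1 a2 a a4)

theorem ClS.sy {n0 n1 w0 m w1 : ℝ} {l0 l1 : ℕ} (h : ClS n0 n1 w0 m l0 l1)
    (h' : ClS n0 n1 m w1 l0 l1) : ClS n0 n1 w0 w1 l0 l1 :=
  fun l ν ω Z y q a1 a2 a3 a4 a5 a6 => (le_total ω m).elim
    (fun a => h l ν ω Z y q a1 a2 a3 a4 a5 a) (fun a => h' l ν ω Z y q a1 a2 a3 a4 a a6)

theorem ClS.sl {n0 n1 w0 w1 : ℝ} {l0 m l1 : ℕ} (h : ClS n0 n1 w0 w1 l0 m)
    (h' : ClS n0 n1 w0 w1 (Nat.succ m) l1) : ClS n0 n1 w0 w1 l0 l1 :=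
  fun l ν ω Z y q a1 a2 => (Nat.lt_or_ge m l).elim (fun a => h' l ν ω Z y q a a2)
    (fun a => h l ν ω Z y q a1 a)

theorem c_bb (l : ℕ) : (bb l : ℝ) = (l + 5) * 2147483648 := by
  simp only [bb, c_mul, c_add, Nat.cast_ofNat]

theorem chkS_sound {T : Tr} {n0 n1 w0 w1 : SI} {l0 l1 : ℕ} (h : chkS T n0 n1 w0 w1 l0 l1 = true) :
    ClS n0.val n1.val w0.val w1.val l0 l1 := by
  induction T generalizing n0 n1 w0 w1 l0 l1 with
  | leaf n J a b c d =>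
    obtain ⟨s, h1, h2⟩ := opt_rec' (f := fun s => finalS s (bb l0)) h
    intro l ν ω Z y q a1 a2 a3 a4 a5 a6 a7 a8 a9
    have b1 : (l0 : ℝ) ≤ l := Nat.cast_le.2 a1
    have b2 : (l : ℝ) ≤ l1 := Nat.cast_le.2 a2
    have k := chain_sound h1 a9 a3 a4 a5 a6 (by rw [c_bb]; linarith) (by rw [c_bb]; linarith)
      (by exact_mod_cast a7) (by exact_mod_cast a8)
    refine (finalS_sound h2 k).imp_left fun k1 => k1.trans_le ?_
    rw [c_bb]
    gcongr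
  | skip => exact absurd h Bool.false_ne_true
  | sx s t ih1 ih2 =>
    change fI _ (fun m => an (chkS s n0 m w0 w1 l0 l1) (chkS t m n1 w0 w1 l0 l1)) = true at h
    rw [fI_eq] at h
    obtain ⟨h1, h2⟩ := an_eq.1 h
    exact (ih1 h1).sx (ih2 h2)
  | sy s t ih1 ih2 =>
    change fI _ (fun m => an (chkS s n0 n1 w0 m l0 l1) (chkS t n0 n1 m w1 l0 l1)) = true at h
    rw [fI_eq] at h
    obtain ⟨h1, h2⟩ := an_eq.1 h
    exact (ih1 h1).sy (ih2 h2)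
  | sl s t ih1 ih2 =>
    change fN _ (fun m => an (chkS s n0 n1 w0 w1 l0 m) (chkS t n0 n1 w0 w1 (Nat.succ m) l1))
      = true at h
    rw [fN_eq] at h
    obtain ⟨h1, h2⟩ := an_eq.1 h
    exact (ih1 h1).sl (ih2 h2)

/-- The joint claim on a box. -/
def ClJ (l x0 x1 y0 y1 : ℕ) : Prop :=
  ∀ (x w s Z : ℝ) (y q y' q' : ℕ → ℂ), (x0 : ℝ) ≤ x → x ≤ x1 → (y0 : ℝ) ≤ w → w ≤ y1 →
    7246168173 ≤ s → s ≤ 7247886162 → 11617027542 ≤ Z → Z ≤ 11619604523 →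
    Ch (x - 10737418240) (w - s) ((l + 5) * 2147483648) Z y q →
    Ch (x - 10737418240) (-w - s) ((l + 5) * 2147483648) Z y' q' → y' 0 = -conj (y 0) →
    q' 0 = conj (q 0) - 2 * (((l + 5) * 2147483648 : ℝ) : ℂ) * conj (y 0) →
    (l = 0 → 536870912 ^ 2 ≤ x ^ 2 + w ^ 2 ∧ 536870912 ^ 2 ≤ (x - 4294967296) ^ 2 + w ^ 2) →
    (l = 1 → 536870912 ^ 2 ≤ (x - 2147483648) ^ 2 + w ^ 2) → y 0 = 0 ∧ q 0 = 0

theorem ClJ.sx {l x0 m x1 y0 y1 : ℕ} (h : ClJ l x0 m y0 y1) (h' : ClJ l m x1 y0 y1) :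
    ClJ l x0 x1 y0 y1 :=
  fun x w s Z y q y' q' a1 a2 => (le_total x m).elim (fun a => h x w s Z y q y' q' a1 a)
    (fun a => h' x w s Z y q y' q' a a2)

theorem ClJ.sy {l x0 x1 y0 m y1 : ℕ} (h : ClJ l x0 x1 y0 m) (h' : ClJ l x0 x1 m y1) :
    ClJ l x0 x1 y0 y1 :=
  fun x w s Z y q y' q' a1 a2 a3 a4 => (le_total w m).elim
    (fun a => h x w s Z y q y' q' a1 a2 a3 a) (fun a => h' x w s Z y q y' q' a1 a2 a a4)

theorem inDisc_sound {c x0 x1 y1 : ℕ} (h : inDisc c x0 x1 y1 = true) {x w : ℝ} (h0 : (x0 : ℝ) ≤ x)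
    (h1 : x ≤ x1) (h2 : 0 ≤ w) (h3 : w ≤ y1) : (x - c) ^ 2 + w ^ 2 < 536870912 ^ 2 := by
  have k : ((_ : ℕ) : ℝ) < ((_ : ℕ) : ℝ) := Nat.cast_lt.2 (lt_eq.1 h)
  simp only [c_mul, c_ss, mx_eq, Nat.cast_max, c_ab, val_dif, Nat.cast_ofNat] at k
  have k1 := le_max_left |(x0 : ℝ) - c| |(x1 : ℝ) - c|
  have k2 := le_max_right |(x0 : ℝ) - c| |(x1 : ℝ) - c|
  have k3 := neg_abs_le ((x0 : ℝ) - c)
  have k4 := le_abs_self ((x1 : ℝ) - c)
  generalize max |(x0 : ℝ) - c| |(x1 : ℝ) - c| = M at k k1 k2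
  have k5 : (x - c) ^ 2 ≤ M ^ 2 := sq_le_sq' (by linarith) (by linarith)
  have k6 : w ^ 2 ≤ (y1 : ℝ) ^ 2 := pow_le_pow_left₀ h2 h3 2
  linarith

theorem chkJ_sound {l : ℕ} {T : Tr} {x0 x1 y0 y1 : ℕ} (h : chkJ l T x0 x1 y0 y1 = true) :
    ClJ l x0 x1 y0 y1 := by
  induction T generalizing x0 x1 y0 y1 with
  | leaf n J a b c d =>
    obtain ⟨u, h1, h2⟩ := opt_rec' h
    obtain ⟨t, h3, h4⟩ := opt_rec' h2
    intro x w s Z y q y' q' a1 a2 a3 a4 a5 a6 a7 a8 a9 a10 a11 a12 _ _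
    have k := chain_sound h1 a9 (by rw [val_dif]; push_cast; linarith)
      (by rw [val_dif]; push_cast; linarith) (by rw [val_dif]; push_cast; linarith)
      (by rw [val_dif]; push_cast; linarith) (c_bb l).le (c_bb l).ge
      (by exact_mod_cast a7) (by exact_mod_cast a8)
    have k' := chain_sound h3 a10 (by rw [val_dif]; push_cast; linarith)
      (by rw [val_dif]; push_cast; linarith) (by rw [val_m, c_add]; push_cast; linarith)
      (by rw [val_m, c_add]; push_cast; linarith) (c_bb l).le (c_bb l).ge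
      (by exact_mod_cast a7) (by exact_mod_cast a8)
    refine finalJ_sound h4 k ?_
    rw [a11, a12] at k'
    rw [c_mul, c_bb]
    push_cast at k' ⊢
    exact k'
  | skip =>
    intro x w s Z y q y' q' a1 a2 a3 a4 _ _ _ _ _ _ _ _ b0 b1
    have hw : 0 ≤ w := (Nat.cast_nonneg _).trans a3
    exfalso
    rcases orr_eq.1 h with h1 | h1
    · obtain ⟨h2, h3⟩ := an_eq.1 h1
      obtain ⟨c1, c2⟩ := b0 (Nat.eq_of_beq_eq_true h2)
      rcases orr_eq.1 h3 with h4 | h4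
      · have := inDisc_sound h4 a1 a2 hw a4
        rw [Nat.cast_zero, sub_zero] at this
        linarith
      · have := inDisc_sound h4 a1 a2 hw a4
        rw [Nat.cast_ofNat] at this
        linarith
    · obtain ⟨h2, h3⟩ := an_eq.1 h1
      have c1 := b1 (Nat.eq_of_beq_eq_true h2)
      have := inDisc_sound h3 a1 a2 hw a4
      rw [Nat.cast_ofNat] at this
      linarith
  | sx s t ih1 ih2 =>
    change fN _ (fun m => an (chkJ l s x0 m y0 y1) (chkJ l t m x1 y0 y1)) = true at h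
    rw [fN_eq] at h
    obtain ⟨h1, h2⟩ := an_eq.1 h
    exact (ih1 h1).sx (ih2 h2)
  | sy s t ih1 ih2 =>
    change fN _ (fun m => an (chkJ l s x0 x1 y0 m) (chkJ l t x0 x1 m y1)) = true at h
    rw [fN_eq] at h
    obtain ⟨h1, h2⟩ := an_eq.1 h
    exact (ih1 h1).sy (ih2 h2)
  | sl s t ih1 ih2 => exact absurd h Bool.false_ne_true

end Vale.Agent.P139Z.Num
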